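import Vale.Agent.P287Z.O.H335.Kos4
import Vale.Agent.P287Z.O.L.Defs2

/-!
# Free modules over `A = S/W` have no torsion and have depth at least two
-/

set_option linter.unusedSectionVars false

open CategoryTheory Limits MvPolynomial

namespace Vale.Agent.P287Z.O.H335

open L

variable {W : MvPolynomial (Fin 6) ℂ}

theorem hg_hz {n : ℤ} {f : MvPolynomial (Fin 6) ℂ} : V.Hg (2 * n) f ↔ Hz n f := by
  have key : ∀ m : Fin 6 →₀ ℕ,
      Finsupp.weight (fun _ : Fin 6 => (2 : ℤ)) m = 2 * (m.degree : ℤ) := by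
    intro m
    rw [Finsupp.weight_apply, Finsupp.sum, Finsupp.degree_apply]
    push_cast
    rw [Finset.mul_sum]
    refine Finset.sum_congr rfl fun i _ => ?_
    simp [mul_comm]
  rw [hz_iff]
  constructor
  · intro h m hm
    have h1 := h hm
    rw [key] at h1
    linarith
  · intro h m hm
    rw [key, h m hm]

theorem hgodd {n : ℤ} {f : MvPolynomial (Fin 6) ℂ} (hf : V.Hg n f) (hn : ¬ Even n) : f = 0 := by
  ext m
  rw [coeff_zero]
  by_contra h
  apply hn
  have h1 := hf h
  rw [← h1, Finsupp.weight_apply, Finsupp.sum]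
  refine Finset.even_sum _ fun i _ => ?_
  rw [nsmul_eq_mul]
  exact even_two.mul_left _

theorem sg_single (j : Fin 6) : sg j {j} = 1 := by
  simp [sg, Finset.filter_singleton]

/-- no torsion -/
theorem tfS (hW : Hz 3 W) (hW0 : W ≠ 0) {d : ℤ} {v : MvPolynomial (Fin 6) ℂ} (hv : Hz d v)
    (h : ∀ j, W ∣ X j * v) : W ∣ v := by
  classical
  obtain ⟨F, e1, e2⟩ : ∃ F : Finset (Fin 6) → MvPolynomial (Fin 6) ℂ, F ∅ = v ∧
      ∀ I, I.card ≠ 0 → F I = 0 :=
    ⟨fun I => if I = ∅ then v else 0, if_pos rfl, fun I hI => if_neg (by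
      rintro rfl; exact hI rfl)⟩
  obtain ⟨g, -, hg, h2⟩ := epW_exact (σ := Fin 6) hW hW0 0 d (by simp; omega) (by simp; omega)
    F (by
      intro I
      by_cases hI : I = ∅
      · subst hI
        rw [e1]
        simpa using hv
      · rw [e2 I (by simpa using hI)]
        exact Hz.zero _) e2 (by
      intro J
      by_cases hJ : J.card = 1
      · obtain ⟨j, rfl⟩ := Finset.card_eq_one.1 hJ
        have h3 : ({j} : Finset (Fin 6)).erase j = ∅ := by simp
        rw [ep, Finset.sum_singleton, h3, e1, sg_single, one_smul]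
        exact h j
      · rw [ep, Finset.sum_eq_zero]
        · exact dvd_zero _
        · intro i hi
          rw [e2, map_zero, smul_zero]
          rw [Finset.card_erase_of_mem hi]
          have := Finset.card_pos.2 ⟨i, hi⟩
          omega)
  have h3 := h2 ∅
  rw [e1] at h3
  simpa [ep] using h3

/-- depth two -/
theorem dpS (hW : Hz 3 W) (hW0 : W ≠ 0) {d : ℤ} {y : Fin 6 → MvPolynomial (Fin 6) ℂ}
    (hy : ∀ j, Hz (d + 1) (y j)) (h : ∀ j l, W ∣ X j * y l - X l * y j) :
    ∃ z, Hz d z ∧ ∀ j, W ∣ y j - X j * z := by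
  classical
  obtain ⟨F, e1, e2⟩ : ∃ F : Finset (Fin 6) → MvPolynomial (Fin 6) ℂ, (∀ j, F {j} = y j) ∧
      ∀ I, I.card ≠ 1 → F I = 0 := by
    refine ⟨fun I => ∑ j, if I = {j} then y j else 0, fun j => ?_, fun I hI => ?_⟩
    · dsimp only
      rw [Finset.sum_eq_single j]
      · rw [if_pos rfl]
      · intro k _ hk
        rw [if_neg]
        intro h2
        exact hk (Finset.singleton_injective h2).symm
      · simp
    · refine Finset.sum_eq_zero fun j _ => ?_
      rw [if_neg]
      rintro rfl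
      exact hI (Finset.card_singleton j)
  obtain ⟨g, hgH, hg, h2⟩ := epW_exact (σ := Fin 6) hW hW0 1 d (by simp; omega) (by simp; omega)
    F (by
      intro I
      by_cases hI : I.card = 1
      · obtain ⟨j, rfl⟩ := Finset.card_eq_one.1 hI
        rw [e1]
        simpa using hy j
      · rw [e2 I hI]
        exact Hz.zero _) e2 (by
      intro J
      by_cases hJ : J.card = 2
      · obtain ⟨j, l, hjl, rfl⟩ := Finset.card_eq_two.1 hJ
        rw [ep, Finset.sum_pair hjl]
        have h3 : ({j, l} : Finset (Fin 6)).erase j = {l} := by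
          rw [Finset.erase_insert]; simpa using hjl
        have h4 : ({j, l} : Finset (Fin 6)).erase l = {j} := by
          rw [Finset.pair_comm, Finset.erase_insert]; simpa using hjl.symm
        have h5 : sg j ({j, l} : Finset (Fin 6)) = - sg l ({j, l} : Finset (Fin 6)) := by
          have h6 : sg j ({j, l} : Finset (Fin 6)) = (if l < j then -1 else 1) * sg j {j} := by
            rw [Finset.pair_comm, sg_insert (by simpa using hjl.symm)]
          have h7 : sg l ({j, l} : Finset (Fin 6)) = (if j < l then -1 else 1) * sg l {l} := by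
            rw [sg_insert (by simpa using hjl)]
          rw [h6, h7, sg_single, sg_single]
          rcases lt_or_gt_of_ne hjl with h8 | h8
          · rw [if_neg h8.not_gt, if_pos h8]; ring
          · rw [if_pos h8, if_neg h8.not_gt]; ring
        rw [h3, h4, e1, e1, h5, neg_smul, neg_add_eq_sub, ← smul_sub, mu_apply, mu_apply,
          zsmul_eq_mul]
        exact (h l j).mul_left _
      · rw [ep, Finset.sum_eq_zero]
        · exact dvd_zero _
        · intro i hi
          rw [e2, map_zero, smul_zero]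
          rw [Finset.card_erase_of_mem hi]
          have := Finset.card_pos.2 ⟨i, hi⟩
          omega)
  refine ⟨g ∅, by simpa using hgH ∅, fun j => ?_⟩
  have h3 := h2 {j}
  have h4 : ({j} : Finset (Fin 6)).erase j = ∅ := by simp
  rw [e1, ep, Finset.sum_singleton, h4, sg_single, one_smul] at h3
  exact h3

/-! ## The same for the graded modules `FrO W q` -/

/-- multiplication by `x_i` -/
noncomputable def xm (i : Fin 6) (a : ℤ) : (⟨a⟩ : Dg) ⟶ ⟨a + 1⟩ :=
  ⟨Finsupp.single i 1, by simp⟩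

variable {ι : Type} [Fintype ι]

theorem map_mk (q : ι → ℤ) {a b : ℤ} (m : (⟨a⟩ : Dg) ⟶ ⟨b⟩) (v : ι → MvPolynomial (Fin 6) ℂ)
    (h : ∀ i, V.Hg (2 * a - q i) (v i)) (h' : ∀ i, V.Hg (2 * b - q i) (monomial m.1 1 * v i)) :
    (FrO W q).map m (FrO.mk W v h) = FrO.mk W (fun i => monomial m.1 1 * v i) h' := rfl

theorem mk_zero (q : ι → ℤ) {a : ℤ} (v : ι → MvPolynomial (Fin 6) ℂ)
    (h : ∀ i, V.Hg (2 * a - q i) (v i)) : FrO.mk W v h = 0 ↔ ∀ i, W ∣ v i := by
  have : FrO.mk W v h = FrO.mk W (0 : ι → MvPolynomial (Fin 6) ℂ)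
      (fun i => isWeightedHomogeneous_zero _ _ _) ↔ _ := FrO.mk_eq W
  simp only [Pi.zero_apply, sub_zero] at this
  exact this

theorem hg_X (i : Fin 6) : V.Hg 2 (X i : MvPolynomial (Fin 6) ℂ) := isWeightedHomogeneous_X _ _ _

theorem hg_xm {q : ι → ℤ} {a : ℤ} {v : ι → MvPolynomial (Fin 6) ℂ}
    (h : ∀ i, V.Hg (2 * a - q i) (v i)) (j : Fin 6) (i : ι) :
    V.Hg (2 * (a + 1) - q i) (X j * v i) := by
  have := (hg_X j).mul (h i)
  rwa [show 2 + (2 * a - q i) = 2 * (a + 1) - q i by ring] at this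

theorem xm_mk (q : ι → ℤ) {a : ℤ} (j : Fin 6) (v : ι → MvPolynomial (Fin 6) ℂ)
    (h : ∀ i, V.Hg (2 * a - q i) (v i)) :
    (FrO W q).map (xm j a) (FrO.mk W v h) = FrO.mk W (fun i => X j * v i) (hg_xm h j) := rfl

/-- `FrO W q` has no torsion -/
theorem tfO (hW : Hz 3 W) (hW0 : W ≠ 0) (q : ι → ℤ) {a : ℤ} (y : (FrO W q).obj ⟨a⟩)
    (h : ∀ j, (FrO W q).map (xm j a) y = 0) : y = 0 := by
  obtain ⟨v, hv, rfl⟩ := FrO.mk_surj W y
  rw [mk_zero]
  intro i
  by_cases hq : Even (q i)
  · obtain ⟨k, hk⟩ := hq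
    refine tfS hW hW0 (d := a - k) ?_ fun j => ?_
    · rw [← hg_hz]
      have := hv i
      rwa [show 2 * a - q i = 2 * (a - k) by rw [hk]; ring] at this
    · have := h j
      rw [xm_mk, mk_zero] at this
      exact this i
  · rw [hgodd (hv i)]
    · exact dvd_zero _
    · intro h1
      apply hq
      have h2 : q i = 2 * a - (2 * a - q i) := by ring
      rw [h2]
      exact (even_two_mul a).sub h1

/-- `FrO W q` has depth at least two -/
theorem dpO (hW : Hz 3 W) (hW0 : W ≠ 0) (q : ι → ℤ) {a : ℤ} (y : Fin 6 → (FrO W q).obj ⟨a + 1⟩)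
    (h : ∀ j l, (FrO W q).map (xm j (a + 1)) (y l) = (FrO W q).map (xm l (a + 1)) (y j)) :
    ∃ z : (FrO W q).obj ⟨a⟩, ∀ j, (FrO W q).map (xm j a) z = y j := by
  choose v hv hvy using fun j => FrO.mk_surj W (y j)
  have h1 : ∀ i j l, W ∣ X j * v l i - X l * v j i := by
    intro i j l
    have h2 := h j l
    rw [← hvy j, ← hvy l, xm_mk, xm_mk, FrO.mk_eq] at h2
    exact h2 i
  have h2 : ∀ i, ∃ z, V.Hg (2 * a - q i) z ∧ ∀ j, W ∣ v j i - X j * z := by
    intro i
    by_cases hq : Even (q i)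
    · obtain ⟨k, hk⟩ := hq
      obtain ⟨z, hz, hz'⟩ := dpS hW hW0 (d := a - k) (y := fun j => v j i) (fun j => by
        rw [← hg_hz]
        have := hv j i
        rwa [show 2 * (a + 1) - q i = 2 * (a - k + 1) by rw [hk]; ring] at this) (h1 i)
      refine ⟨z, ?_, hz'⟩
      rw [show 2 * a - q i = 2 * (a - k) by rw [hk]; ring, hg_hz]
      exact hz
    · refine ⟨0, isWeightedHomogeneous_zero _ _ _, fun j => ?_⟩
      rw [hgodd (hv j i)]
      · simp
      · intro h3
        apply hq
        have h4 : q i = 2 * (a + 1) - (2 * (a + 1) - q i) := by ring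
        rw [h4]
        exact (even_two_mul _).sub h3
  choose z hz hz' using h2
  refine ⟨FrO.mk W z hz, fun j => ?_⟩
  rw [xm_mk, ← hvy j, FrO.mk_eq]
  intro i
  rw [← dvd_neg, neg_sub]
  exact hz' i j

end Vale.Agent.P287Z.O.H335
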