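import Mathlib

/-!
# Dimension shifting along an exact complex
-/

open CategoryTheory Limits Abelian

universe w v u

namespace Vale.Agent.P287Z.O.H335

variable {C : Type u} [Category.{v} C] [Abelian C] [HasExt.{w} C]

/-- the objects of the shifted complex `… → K₃ → K₂ → Z` -/
def shK (K : ℕ → C) (Z : C) : ℕ → C
  | 0 => Z
  | j + 1 => K (j + 2)

/-- the differentials of the shifted complex -/
def shd (K : ℕ → C) (Z : C) (d : ∀ j, K (j + 1) ⟶ K j) (p : K 2 ⟶ Z) :
    ∀ j, shK K Z (j + 1) ⟶ shK K Z j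
  | 0 => p
  | j + 1 => d (j + 2)

/-- dimension shifting: `… → K₂ → K₁ → K₀ → 0` exact, `Ext^i(K_j, N) = 0` for `1 ≤ i ≤ j₀`,
`j ≥ 1` and `Hom(K, N)` exact at `K_{j₀+2}`; then every class of `Ext^{j₀+1}(K₀, N)` which vanishes
on `K₁` is zero. -/
theorem ext_shift (N : C) (j₀ : ℕ) : ∀ (K : ℕ → C) (d : ∀ j, K (j + 1) ⟶ K j)
    (w : ∀ j, d (j + 1) ≫ d j = 0)
    (_ : ∀ j, (ShortComplex.mk (d (j + 1)) (d j) (w j)).Exact) (_ : Epi (d 0))
    (_ : ∀ i j, 1 ≤ i → i ≤ j₀ → 1 ≤ j → ∀ x : Ext (K j) N i, x = 0)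
    (_ : ∀ φ : K (j₀ + 2) ⟶ N, d (j₀ + 2) ≫ φ = 0 → ∃ ψ : K (j₀ + 1) ⟶ N, d (j₀ + 1) ≫ ψ = φ)
    (α : Ext (K 0) N (j₀ + 1)) (_ : (Ext.mk₀ (d 0)).comp α (zero_add _) = 0), α = 0 := by
  induction j₀ with
  | zero =>
    intro K d w hK h0 _ hφ α hα
    let S : ShortComplex C := ShortComplex.mk (kernel.ι (d 0)) (d 0) (kernel.condition _)
    have hS : S.ShortExact := { exact := ShortComplex.exact_kernel (d 0) }
    obtain ⟨β, hβ⟩ := Ext.contravariant_sequence_exact₃ hS N α hα (n₀ := 0) rfl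
    obtain ⟨b, rfl⟩ := (Ext.mk₀_bijective _ _).2 β
    let p : K 2 ⟶ kernel (d 0) := kernel.lift (d 0) (d 1) (w 0)
    have hp : Epi p := by
      have := hK 0
      rw [ShortComplex.exact_iff_epi_kernel_lift] at this
      exact this
    obtain ⟨ψ, hψ⟩ := hφ (p ≫ b) (by
      rw [← Category.assoc]
      have : d 2 ≫ p = 0 := by
        rw [← cancel_mono (kernel.ι (d 0)), Category.assoc, kernel.lift_ι, w 1, zero_comp]
      rw [this, zero_comp])
    have h1 : b = kernel.ι (d 0) ≫ ψ := by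
      rw [← cancel_epi p, ← Category.assoc, kernel.lift_ι]
      exact hψ.symm
    rw [← hβ, h1, ← Ext.mk₀_comp_mk₀]
    exact hS.extClass_comp_assoc (Ext.mk₀ ψ)
  | succ j ih =>
    intro K d w hK h0 hE hφ α hα
    let S : ShortComplex C := ShortComplex.mk (kernel.ι (d 0)) (d 0) (kernel.condition _)
    have hS : S.ShortExact := { exact := ShortComplex.exact_kernel (d 0) }
    obtain ⟨β, hβ⟩ := Ext.contravariant_sequence_exact₃ hS N α hα (n₀ := j + 1) (by lia)
    let p : K 2 ⟶ kernel (d 0) := kernel.lift (d 0) (d 1) (w 0)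
    have hp : Epi p := by
      have := hK 0
      rw [ShortComplex.exact_iff_epi_kernel_lift] at this
      exact this
    have hdp : d 2 ≫ p = 0 := by
      rw [← cancel_mono (kernel.ι (d 0)), Category.assoc, kernel.lift_ι, w 1, zero_comp]
    have hβ0 : β = 0 := by
      refine ih (shK K (kernel (d 0))) (shd K _ d p) ?_ ?_ hp ?_ ?_ β ?_
      · rintro (_ | i)
        · exact hdp
        · exact w (i + 2)
      · rintro (_ | i)
        · change (ShortComplex.mk (d 2) p hdp).Exact
          have h1 := hK 1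
          rw [ShortComplex.exact_iff_exact_up_to_refinements] at h1 ⊢
          intro A x hx
          exact h1 x (by
            change x ≫ d 1 = 0
            have : p ≫ kernel.ι (d 0) = d 1 := kernel.lift_ι _ _ _
            rw [← this, ← Category.assoc]
            change (x ≫ p) ≫ _ = 0
            rw [show x ≫ p = 0 from hx, zero_comp])
        · exact hK (i + 2)
      · rintro i (_ | k) h1 h2 h3
        · omega
        · exact hE i (k + 2) h1 (by omega) (by omega)
      · exact hφ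
      · exact hE (j + 1) 2 (by omega) le_rfl (by omega) _
    rw [← hβ, hβ0, Ext.comp_zero]

end Vale.Agent.P287Z.O.H335
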