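import Vale.Agent.P287Z.O.H335.KC

/-!
# Vanishing of `Ext` between line bundles on `X` (P287 port of P294-L, block B5)
-/

set_option linter.unusedSectionVars false

open CategoryTheory Limits MvPolynomial Abelian

namespace Vale.Agent.P287Z.O.H335

open L

variable {W : MvPolynomial (Fin 6) ℂ} [FrOK W]

noncomputable instance : HasExt.{1} (Coh W) := hasExt_of_hasDerivedCategory (Coh W)

variable (W) in
/-- `A(-d/2)` -/
noncomputable def O1 (d : ℤ) : GA W := FrA W (fun _ : Unit => d)

section mats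

variable {ι κ : Type} [Fintype ι] [Fintype κ] {q : ι → ℤ} {q' : κ → ℤ}

theorem matA_congr {f g : Matrix κ ι (MvPolynomial (Fin 6) ℂ)} (hf : HgM q q' f) (hg : HgM q q' g)
    (h : f = g) : matA W f hf = matA W g hg := by
  subst h; rfl

theorem matA_one [DecidableEq ι] (h : HgM q q (1 : Matrix ι ι (MvPolynomial (Fin 6) ℂ))) :
    matA W 1 h = 𝟙 (FrA W q) := by
  apply ObjectProperty.hom_ext
  refine FrO.hom_ext W fun i hi => ?_
  change (matO W 1 h).app _ (gen W q i) = gen W q i
  rw [matO_gen W 1 h i hi, gen, dif_pos hi]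
  refine FrO.mk_congr W (funext fun k => ?_)
  rw [Matrix.one_apply]
  unfold Pi.single Function.update
  by_cases hk : k = i
  · rw [if_pos hk, dif_pos hk]
    subst hk
    rfl
  · rw [if_neg hk, dif_neg hk]
    rfl

theorem matO_sum {τ : Type} (s : Finset τ) (f : τ → Matrix κ ι (MvPolynomial (Fin 6) ℂ))
    (hf : ∀ t, HgM q q' (f t)) (h : HgM q q' (∑ t ∈ s, f t)) :
    ∑ t ∈ s, matO W (f t) (hf t) = matO W (∑ t ∈ s, f t) h := by
  classical
  refine FrO.hom_ext W fun i hi => ?_
  have h5 : (∑ t ∈ s, matO W (f t) (hf t)).app ⟨q i / 2⟩ =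
      ∑ t ∈ s, (matO W (f t) (hf t)).app ⟨q i / 2⟩ := by
    simp [NatTrans.app_sum]
  rw [h5, sum_hom_apply, matO_gen W _ h i hi,
    Finset.sum_congr rfl fun t _ => matO_gen W (f t) (hf t) i hi]
  have h6 := FrO.mk_sum W s (fun t k => f t k i) (a := q i / 2) (q := q') (fun t k => by
    rw [← hi]; exact hf t k i) (fun k => by
    have := h k i
    rw [Matrix.sum_apply] at this
    rw [← hi]
    exact this)
  rw [← h6]
  exact FrO.mk_congr W (funext fun k => (Matrix.sum_apply k i s f).symm)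

theorem matA_sum {τ : Type} (s : Finset τ) (f : τ → Matrix κ ι (MvPolynomial (Fin 6) ℂ))
    (hf : ∀ t, HgM q q' (f t)) (h : HgM q q' (∑ t ∈ s, f t)) :
    ∑ t ∈ s, matA W (f t) (hf t) = matA W (∑ t ∈ s, f t) h := by
  apply ObjectProperty.hom_ext
  have h4 : (∑ t ∈ s, matA W (f t) (hf t)).hom = ∑ t ∈ s, (matA W (f t) (hf t)).hom :=
    (grA W).ι.map_sum _ _
  rw [h4]
  exact matO_sum s f hf h

end mats

/-- multiplication by a homogeneous polynomial -/
noncomputable def pm {d d' : ℤ} (p : MvPolynomial (Fin 6) ℂ) (hp : V.Hg (d - d') p) :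
    O1 W d ⟶ O1 W d' :=
  matA W (Matrix.of fun _ _ => p) (fun _ _ => hp)

theorem pm_comp {d d' d'' : ℤ} (p q : MvPolynomial (Fin 6) ℂ) (hp : V.Hg (d - d') p)
    (hq : V.Hg (d' - d'') q) (hpq : V.Hg (d - d'') (q * p)) :
    pm (W := W) p hp ≫ pm q hq = pm (q * p) hpq := by
  refine (matA_comp W _ _ _ _).trans (matA_congr _ _ ?_)
  ext i j
  simp [Matrix.mul_apply]

theorem pm_one (d : ℤ) (h : V.Hg (d - d) (1 : MvPolynomial (Fin 6) ℂ)) :
    pm (W := W) (d := d) 1 h = 𝟙 _ := by
  have h1 : HgM (fun _ : Unit => d) (fun _ : Unit => d)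
      (1 : Matrix Unit Unit (MvPolynomial (Fin 6) ℂ)) := fun i j => by
    rw [Matrix.one_apply_eq]; exact h
  refine (matA_congr _ h1 ?_).trans (matA_one h1)
  ext i j
  simp

section pieces

variable {ι : Type} [Fintype ι] [DecidableEq ι] (q : ι → ℤ)

/-- the column of the inclusion of a summand -/
noncomputable def incM (i : ι) : Matrix ι Unit (MvPolynomial (Fin 6) ℂ) :=
  Matrix.of fun k _ => if k = i then 1 else 0

/-- the row of the projection to a summand -/
noncomputable def prjM (i : ι) : Matrix Unit ι (MvPolynomial (Fin 6) ℂ) :=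
  Matrix.of fun _ k => if k = i then 1 else 0

theorem incM_hg (i : ι) : HgM (fun _ : Unit => q i) q (incM i) := by
  intro k _
  rw [incM, Matrix.of_apply]
  split_ifs with h
  · rw [h, sub_self]
    exact isWeightedHomogeneous_one _ _
  · exact isWeightedHomogeneous_zero _ _ _

theorem prjM_hg (i : ι) : HgM q (fun _ : Unit => q i) (prjM i) := by
  intro _ k
  rw [prjM, Matrix.of_apply]
  split_ifs with h
  · rw [h, sub_self]
    exact isWeightedHomogeneous_one _ _
  · exact isWeightedHomogeneous_zero _ _ _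

/-- inclusion of a summand -/
noncomputable def inc (i : ι) : O1 W (q i) ⟶ FrA W q := matA W (incM i) (incM_hg q i)

/-- projection to a summand -/
noncomputable def prj (i : ι) : FrA W q ⟶ O1 W (q i) := matA W (prjM i) (prjM_hg q i)

theorem inc_prj (i : ι) : inc (W := W) q i ≫ prj q i = 𝟙 _ := by
  have h1 : HgM (fun _ : Unit => q i) (fun _ : Unit => q i)
      (1 : Matrix Unit Unit (MvPolynomial (Fin 6) ℂ)) := fun _ _ => by
    rw [Matrix.one_apply_eq, sub_self]; exact isWeightedHomogeneous_one _ _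
  refine (matA_comp W _ _ _ _).trans ((matA_congr _ h1 ?_).trans (matA_one h1))
  ext a b
  simp [Matrix.mul_apply, incM, prjM]

theorem one_hg : HgM q q (1 : Matrix ι ι (MvPolynomial (Fin 6) ℂ)) := by
  intro a b
  rw [Matrix.one_apply]
  split_ifs with h
  · rw [h, sub_self]; exact isWeightedHomogeneous_one _ _
  · exact isWeightedHomogeneous_zero _ _ _

theorem sum_incM_prjM : ∑ i : ι, incM i * prjM i = (1 : Matrix ι ι (MvPolynomial (Fin 6) ℂ)) := by
  ext a b
  rw [Matrix.sum_apply, Finset.sum_eq_single a]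
  · by_cases h : a = b
    · subst h
      simp [Matrix.mul_apply, incM, prjM]
    · simp [Matrix.mul_apply, incM, prjM, h, Ne.symm h]
  · intro i _ hi
    simp [Matrix.mul_apply, incM, prjM, hi.symm]
  · intro h
    exact absurd (Finset.mem_univ _) h

theorem sum_prj_inc : ∑ i, prj (W := W) q i ≫ inc q i = 𝟙 _ := by
  have h1 : ∀ i, prj (W := W) q i ≫ inc q i = matA W (incM i * prjM i)
      ((prjM_hg q i).mul (incM_hg q i)) := fun i => matA_comp W _ _ _ _
  rw [Finset.sum_congr rfl fun i _ => h1 i]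
  refine (matA_sum _ _ _ ?_).trans ((matA_congr _ (one_hg q) ?_).trans (matA_one _))
  · rw [sum_incM_prjM]; exact one_hg q
  · exact sum_incM_prjM

end pieces

end Vale.Agent.P287Z.O.H335
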