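import Vale.Agent.P287Z.O.H335.ExtV

/-!
# Vanishing of `Ext` between line bundles on `X` (P287 port of P294-L, block B5), conclusion
-/

set_option linter.unusedSectionVars false

open CategoryTheory Limits MvPolynomial Abelian

namespace Vale.Agent.P287Z.O.H335

open L

variable {W : MvPolynomial (Fin 6) ℂ} [FrOK W]

/-- precomposition with `π f` -/
noncomputable def pre {X Y : GA W} (f : X ⟶ Y) {N : Coh W} {n : ℕ} (α : Ext ((piA W).obj Y) N n) :
    Ext ((piA W).obj X) N n :=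
  (Ext.mk₀ ((piA W).map f)).comp α (zero_add n)

variable {N : Coh W} {n : ℕ}

theorem pre_def {X Y : GA W} (f : X ⟶ Y) (α : Ext ((piA W).obj Y) N n) :
    pre f α = (Ext.mk₀ ((piA W).map f)).comp α (zero_add n) := rfl

theorem pre_comp {X Y Z : GA W} (f : X ⟶ Y) (g : Y ⟶ Z) (α : Ext ((piA W).obj Z) N n) :
    pre (f ≫ g) α = pre f (pre g α) := by
  rw [pre_def, pre_def, pre_def, Functor.map_comp, ← Ext.mk₀_comp_mk₀,
    Ext.comp_assoc_of_second_deg_zero]

theorem pre_id {X : GA W} (α : Ext ((piA W).obj X) N n) : pre (𝟙 X) α = α := by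
  rw [pre_def, CategoryTheory.Functor.map_id, Ext.mk₀_id_comp]

theorem pre_zero {X Y : GA W} (f : X ⟶ Y) : pre f (0 : Ext ((piA W).obj Y) N n) = 0 := by
  rw [pre_def, Ext.comp_zero]

theorem zero_pre {X Y : GA W} (α : Ext ((piA W).obj Y) N n) : pre (0 : X ⟶ Y) α = 0 := by
  rw [pre_def, Functor.map_zero, Ext.mk₀_zero, Ext.zero_comp]

theorem add_pre {X Y : GA W} (f g : X ⟶ Y) (α : Ext ((piA W).obj Y) N n) :
    pre (f + g) α = pre f α + pre g α := by
  rw [pre_def, pre_def, pre_def, Functor.map_add, Ext.mk₀_add, Ext.add_comp]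

theorem pre_sum {X Y : GA W} {τ : Type} (s : Finset τ) (f : τ → (X ⟶ Y))
    (α : Ext ((piA W).obj Y) N n) : pre (∑ t ∈ s, f t) α = ∑ t ∈ s, pre (f t) α := by
  classical
  induction s using Finset.induction_on with
  | empty => rw [Finset.sum_empty, Finset.sum_empty, zero_pre]
  | insert t s ht ih => rw [Finset.sum_insert ht, Finset.sum_insert ht, ← ih, add_pre]

theorem ext_pieces {ι : Type} [Fintype ι] [DecidableEq ι] (q : ι → ℤ)
    (α : Ext ((piA W).obj (FrA W q)) N n) (h : ∀ i, pre (inc q i) α = 0) : α = 0 := by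
  rw [← pre_id α, ← sum_prj_inc q, pre_sum]
  refine Finset.sum_eq_zero fun i _ => ?_
  rw [pre_comp, h i, pre_zero]

theorem O1_odd {d : ℤ} (hd : ¬ Even d) : 𝟙 (O1 W d) = 0 := by
  apply ObjectProperty.hom_ext
  refine FrO.hom_ext W fun i hi => ?_
  exfalso
  apply hd
  rw [hi]
  exact even_two_mul _

theorem ext_odd {d : ℤ} (hd : ¬ Even d) (α : Ext ((piA W).obj (O1 W d)) N n) : α = 0 := by
  rw [← pre_id α, O1_odd hd, zero_pre]

theorem factor (hW10 : V.Hg 6 W) {L : GA W} {d e : ℤ} (f : L ⟶ O1 W e)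
    (p : MvPolynomial (Fin 6) ℂ) (hp : V.Hg (d - e) p) (l : L.obj.obj ⟨d / 2⟩)
    (hy : ∀ _ : Unit, V.Hg (2 * (d / 2) - e) p)
    (hl : f.hom.app ⟨d / 2⟩ l = FrO.mk W (q := fun _ : Unit => e) (fun _ => p) hy) :
    ∃ h : O1 W d ⟶ L, h ≫ f = pm p hp := by
  refine ⟨ObjectProperty.homMk (P := grA W)
    (desc (q := fun _ : Unit => d) L.property.1 hW10 (fun _ => l)), ?_⟩
  apply ObjectProperty.hom_ext
  refine FrO.hom_ext W (q := fun _ : Unit => d) fun i hi => ?_
  have e1 : (desc (q := fun _ : Unit => d) L.property.1 hW10 (fun _ => l)).app ⟨d / 2⟩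
      (gen W (fun _ : Unit => d) i) = l := desc_gen L.property.1 hW10 (fun _ => l) i hi
  have e2 := matO_gen W (q := fun _ : Unit => d) (q' := fun _ : Unit => e)
    (Matrix.of fun _ _ => p) (fun _ _ => hp) i hi
  have e3 : f.hom.app ⟨d / 2⟩ ((desc (q := fun _ : Unit => d) L.property.1 hW10
      (fun _ => l)).app ⟨d / 2⟩ (gen W (fun _ : Unit => d) i)) =
      FrO.mk W (q := fun _ : Unit => e) (fun _ => p) hy := by
    rw [e1]
    exact hl
  exact e3.trans e2.symm

/-- **effaceability** by monomials of large degree -/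
theorem eff_mon (hW : Hz 3 W) (e : ℤ) (α : Ext ((piA W).obj (O1 W (2 * e))) N (n + 1)) :
    ∃ n0 : ℕ, ∀ u : Fin 6 →₀ ℕ, n0 ≤ u.degree → ∀ (d : ℤ)
      (hd : V.Hg (d - 2 * e) (monomial u (1 : ℂ))), pre (pm (monomial u 1) hd) α = 0 := by
  obtain ⟨M', p, hp, hα⟩ := H409.efface α
  have hL := Localization.essSurj (piA W) (tors W).isoModSerre
  let M := (piA W).objPreimage M'
  let e' : (piA W).obj M ≅ M' := (piA W).objObjPreimageIso M'
  obtain ⟨ψ, hψ⟩ := Localization.exists_rightFraction (piA W) (tors W).isoModSerre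
    (Y := O1 W (2 * e)) (e'.hom ≫ p)
  have h1 : (piA W).map ψ.s ≫ e'.hom ≫ p = (piA W).map ψ.f := by
    rw [hψ, MorphismProperty.RightFraction.map_s_comp_map]
  have := Localization.inverts (piA W) (tors W).isoModSerre ψ.s ψ.hs
  have h2 : Epi ((piA W).map ψ.f) := by
    rw [← h1]
    infer_instance
  obtain ⟨b0, hb0⟩ := epi_large' ψ.f h2
  refine ⟨(b0 - e).toNat, fun u hu d hd => ?_⟩
  have hde : d = 2 * (e + u.degree) := by
    have h3 : (monomial u (1 : ℂ)).coeff u ≠ 0 := by simp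
    have h4 := hd h3
    rw [Finsupp.weight_apply, Finsupp.sum] at h4
    rw [Finsupp.degree_apply]
    have h5 : (∑ i ∈ u.support, u i • (2 : ℤ)) = 2 * ((∑ i ∈ u.support, u i : ℕ) : ℤ) := by
      push_cast
      rw [Finset.mul_sum]
      refine Finset.sum_congr rfl fun i _ => ?_
      simp [mul_comm]
    rw [h5] at h4
    linarith
  have hd2 : d / 2 = e + u.degree := by omega
  have hdd : d = 2 * (d / 2) := by omega
  have hy : ∀ _ : Unit, V.Hg (2 * (d / 2) - 2 * e) (monomial u (1 : ℂ)) := fun _ => by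
    rw [← hdd]; exact hd
  obtain ⟨l, hl⟩ := hb0 (d / 2) (by have := Int.self_le_toNat (b0 - e); omega)
    (FrO.mk W (q := fun _ : Unit => 2 * e) (a := d / 2) (fun _ => monomial u 1) hy)
  have hW10 : V.Hg 6 W := by
    have := hg_hz.2 hW
    exact this
  obtain ⟨h, h3⟩ := factor hW10 ψ.f (monomial u 1) hd l hy hl
  have h4 : pre (pm (monomial u 1) hd) α =
      (Ext.mk₀ ((piA W).map h ≫ (piA W).map ψ.s ≫ e'.hom)).comp
        ((Ext.mk₀ p).comp α (zero_add _)) (zero_add _) := by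
    rw [pre_def, ← h3, Functor.map_comp, ← h1, ← Ext.comp_assoc_of_second_deg_zero,
      Ext.mk₀_comp_mk₀]
    simp only [Category.assoc]
  rw [h4, hα, Ext.comp_zero]

end Vale.Agent.P287Z.O.H335
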