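import Vale.Agent.P287Z.O.H335.ExtW

/-!
# Vanishing of `Ext` between line bundles on `X` (P287 port of P294-L, block B5), the theorem
-/

set_option linter.unusedSectionVars false

open CategoryTheory Limits MvPolynomial Abelian

namespace Vale.Agent.P287Z.O.H335

open L

variable {W : MvPolynomial (Fin 6) ℂ} [FrOK W]

/-- `Hom(K, 𝒪(n))` is exact -/
theorem hom_ex (hW : Hz 3 W) (hW0 : W ≠ 0) (a d' : ℤ) (hd' : Even d') (hc : d' < -2 * a + 6) (m : ℕ)
    (φ : (piA W).obj (Kz W a (m + 1)) ⟶ (piA W).obj (O1 W d'))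
    (h : (piA W).map (Kd W a (m + 1)) ≫ φ = 0) :
    ∃ ψ : (piA W).obj (Kz W a m) ⟶ (piA W).obj (O1 W d'), (piA W).map (Kd W a m) ≫ ψ = φ := by
  have key : ∃ φ' : Kz W a (m + 1) ⟶ O1 W d', (piA W).map φ' = φ :=
    (pi_bij hW hW0 (fun _ : Unit => d') (Kz W a (m + 1))).2 φ
  obtain ⟨φ', hφ'⟩ := key
  obtain ⟨f, hf, hfφ⟩ := matO_surj W φ'.hom
  have h1 : Kd W a (m + 1) ≫ φ' = 0 := by
    apply (pi_bij hW hW0 (fun _ : Unit => d') (Kz W a (m + 2))).1
    change (piA W).map (Kd W a (m + 1) ≫ φ') = (piA W).map 0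
    rw [Functor.map_comp, Functor.map_zero]
    rw [hφ']
    exact h
  have h2 : matO W (f * kd (m + 1)) ((kd_hg a (m + 1)).mul hf) = 0 := by
    rw [← matO_comp W (kd (m + 1)) (kd_hg a (m + 1)) f hf, hfφ]
    exact congrArg (fun t : Kz W a (m + 2) ⟶ FrA W (fun _ : Unit => d') => t.hom) h1
  rw [matO_eq_zero_iff] at h2
  obtain ⟨e', he'⟩ := hd'
  set F : Finset (Fin 6) → MvPolynomial (Fin 6) ℂ := fun I => f () I with hF
  have hF0 : ∀ I, I.card ≠ m + 1 → F I = 0 := by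
    intro I hI
    have h3 := hf () I
    rw [kq, if_neg hI] at h3
    refine hgodd h3 ?_
    rw [Int.not_even_iff_odd, he']
    exact odd_one.sub_even (Even.add_self e')
  have hFH : ∀ I, Hz (-a - e' + I.card) (F I) := by
    intro I
    by_cases hI : I.card = m + 1
    · have h3 := hf () I
      rw [kq, if_pos hI, he', show 2 * (((m + 1 : ℕ) : ℤ) - a) - (e' + e') =
        2 * (-a - e' + ((m + 1 : ℕ) : ℤ)) by ring, hg_hz] at h3
      rw [hI]
      exact h3
    · rw [hF0 I hI]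
      exact Hz.zero _
  have hFe : ∀ I, W ∣ ep (mu (xs (Fin 6))) F I := by
    intro I
    by_cases hI : I.card = m + 2
    · have h3 := h2 () I (by
        rw [kq, if_pos hI, Int.mul_ediv_cancel_left _ (by norm_num)])
      rw [Matrix.mul_apply] at h3
      rw [← vec_kd (m + 1) F hF0 I]
      exact h3
    · rw [ep, Finset.sum_eq_zero]
      · exact dvd_zero _
      · intro i hi
        have := Finset.card_pos.2 ⟨i, hi⟩
        rw [hF0 _ (by rw [Finset.card_erase_of_mem hi]; omega), map_zero, smul_zero]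
  obtain ⟨g, hg1, hg2, hg3⟩ := epW_exact (σ := Fin 6) hW hW0 (m + 1) (-a - e')
    (Or.inl (by simp; omega)) (Or.inl (by simp; omega)) F hFH hF0 hFe
  have hg0 : ∀ J, J.card ≠ m → g J = 0 := fun J hJ => hg2 J (by omega)
  have hgH : HgM (kq a m) (fun _ : Unit => d') (Matrix.of fun _ I => g I) := by
    intro _ I
    rw [Matrix.of_apply]
    by_cases hI : I.card = m
    · rw [kq, if_pos hI, he', show 2 * ((m : ℤ) - a) - (e' + e') = 2 * (-a - e' + m) by ring,
        hg_hz, ← hI]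
      exact hg1 I
    · rw [hg0 I hI]
      exact isWeightedHomogeneous_zero _ _ _
  let ψ' : Kz W a m ⟶ O1 W d' := matA W _ hgH
  have h5 : Kd W a m ≫ ψ' = φ' := by
    apply ObjectProperty.hom_ext
    change matO W (kd m) (kd_hg a m) ≫ matO W _ hgH = φ'.hom
    rw [matO_comp W _ _ _ _ ((kd_hg a m).mul hgH), ← hfφ]
    refine FrO.hom_ext W fun I hI => ?_
    rw [matO_gen W _ _ I hI, matO_gen W _ _ I hI, FrO.mk_eq]
    intro _
    rw [Matrix.mul_apply]
    have h6 : ∑ J, (Matrix.of (fun (_ : Unit) I => g I)) () J * kd m J I =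
        ep (mu (xs (Fin 6))) g I := vec_kd m g hg0 I
    rw [← dvd_neg, neg_sub]
    have h7 := hg3 I
    rw [← h6] at h7
    exact h7
  refine ⟨(piA W).map ψ', ?_⟩
  rw [← Functor.map_comp, h5]
  exact hφ'

theorem kd0 (i : Fin 6) : kd 0 ∅ {i} = X i := by
  rw [kd, if_pos Finset.card_empty, Finset.sum_eq_single i]
  · simp [sg]
  · intro k _ hk
    rw [if_neg]
    intro h
    exact hk (Finset.singleton_injective h)
  · intro h
    simp at h

theorem kd0' {I : Finset (Fin 6)} (hI : I.card ≠ 1) : kd 0 ∅ I = 0 := by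
  rw [kd, if_pos Finset.card_empty, Finset.sum_eq_zero]
  intro i _
  rw [if_neg]
  rintro rfl
  simp at hI

/-- inclusion of a summand of `K_j` -/
noncomputable def incK (a : ℤ) (j : ℕ) (I : Finset (Fin 6)) : O1 W (kq a j I) ⟶ Kz W a j :=
  inc (kq a j) I

/-- projection to a summand of `K_j` -/
noncomputable def prjK (a : ℤ) (j : ℕ) (I : Finset (Fin 6)) : Kz W a j ⟶ O1 W (kq a j I) :=
  prj (kq a j) I

theorem incK_prjK (a : ℤ) (j : ℕ) (I : Finset (Fin 6)) :
    incK (W := W) a j I ≫ prjK a j I = 𝟙 _ := inc_prj (kq a j) I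

theorem ext_piecesK {N : Coh W} {n : ℕ} (a : ℤ) (j : ℕ) (α : Ext ((piA W).obj (Kz W a j)) N n)
    (h : ∀ I, pre (incK a j I) α = 0) : α = 0 := ext_pieces (kq a j) α h

theorem inc_Kd_prj (a : ℤ) (I : Finset (Fin 6))
    (h : V.Hg (kq a 1 I - kq a 0 ∅) (kd 0 ∅ I)) :
    incK (W := W) a 1 I ≫ Kd W a 0 ≫ prjK a 0 ∅ = pm (kd 0 ∅ I) h := by
  have h1 : Kd W a 0 ≫ prjK a 0 ∅ = (matA W (prjM ∅ * kd 0)
    ((kd_hg a 0).mul (prjM_hg _ ∅)) : Kz W a 1 ⟶ O1 W (kq a 0 ∅)) := matA_comp W _ _ _ _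
  have h2 : incK (W := W) a 1 I ≫ (matA W (prjM ∅ * kd 0) ((kd_hg a 0).mul (prjM_hg _ ∅)) :
      Kz W a 1 ⟶ O1 W (kq a 0 ∅)) = matA W (prjM ∅ * kd 0 * incM I)
        ((incM_hg _ I).mul ((kd_hg a 0).mul (prjM_hg _ ∅))) := matA_comp W _ _ _ _
  rw [h1]
  refine h2.trans (matA_congr _ _ ?_)
  ext i j
  rw [Matrix.mul_apply, Finset.sum_eq_single I]
  · rw [Matrix.mul_apply, Finset.sum_eq_single ∅]
    · simp [prjM, incM]
    · intro J _ hJ
      simp [prjM, hJ]
    · intro h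
      exact absurd (Finset.mem_univ _) h
  · intro J _ hJ
    simp [incM, hJ]
  · intro h
    exact absurd (Finset.mem_univ _) h

/-- a class killed by the variables vanishes -/
theorem kos_kill (hW : Hz 3 W) (hW0 : W ≠ 0) (j₀ : ℕ) (a d' : ℤ) (hd' : Even d')
    (hc : d' < -2 * a + 6)
    (IH : ∀ i, 1 ≤ i → i ≤ j₀ → ∀ d, Even d → d' - 4 ≤ d →
      ∀ x : Ext ((piA W).obj (O1 W d)) ((piA W).obj (O1 W d')) i, x = 0)
    (β : Ext ((piA W).obj (O1 W (kq a 0 ∅))) ((piA W).obj (O1 W d')) (j₀ + 1))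
    (hβ : ∀ i d (h : V.Hg (d - kq a 0 ∅) (X i : MvPolynomial (Fin 6) ℂ)), pre (pm (X i) h) β = 0) :
    β = 0 := by
  have h0 : pre (prjK a 0 ∅) β = 0 := by
    refine ext_shift ((piA W).obj (O1 W d')) j₀ (fun j => (piA W).obj (Kz W a j))
      (fun j => (piA W).map (Kd W a j)) (fun j => ?_) (fun j => K_exact hW hW0 a j)
      (K_epi hW hW0 a) (fun i j h1 h2 h3 x => ?_) (fun φ hφ => ?_) _ ?_
    · rw [← Functor.map_comp, Kd_Kd, Functor.map_zero]
    · refine ext_piecesK a j x fun I => ?_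
      by_cases hI : I.card = j
      · refine IH i h1 h2 _ ?_ ?_ _
        · rw [kq, if_pos hI]; exact even_two_mul _
        · rw [kq, if_pos hI]
          obtain ⟨e', rfl⟩ := hd'
          have : (1 : ℤ) ≤ j := by exact_mod_cast h3
          omega
      · refine ext_odd ?_ _
        rw [kq, if_neg hI]
        decide
    · exact hom_ex hW hW0 a d' hd' hc (j₀ + 1) φ hφ
    · change pre (Kd W a 0) (pre (prjK a 0 ∅) β) = 0
      rw [← pre_comp]
      refine ext_piecesK a 1 _ fun I => ?_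
      rw [← pre_comp]
      by_cases hI : I.card = 1
      · obtain ⟨i, rfl⟩ := Finset.card_eq_one.1 hI
        have h3 : V.Hg (kq a 1 {i} - kq a 0 ∅) (kd 0 ∅ {i}) := kd_hg a 0 ∅ {i}
        rw [inc_Kd_prj a {i} h3]
        have h4 : V.Hg (kq a 1 {i} - kq a 0 ∅) (X i : MvPolynomial (Fin 6) ℂ) := by
          rw [← kd0 i]; exact h3
        have h5 : pm (W := W) (kd 0 ∅ {i}) h3 = pm (X i) h4 := by
          congr 1
          exact kd0 i
        rw [h5]
        exact hβ i _ h4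
      · exact ext_odd (by rw [kq, if_neg hI]; decide) _
  rw [← pre_id β, ← incK_prjK a 0 ∅, pre_comp, h0, pre_zero]

end Vale.Agent.P287Z.O.H335
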