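import Vale.Agent.P287Z.O.H335.ExtX

/-!
# Vanishing of `Ext` between line bundles on `X`: `ExtSt` (P287 port of P294-L, block B5)
-/

set_option linter.unusedSectionVars false

open CategoryTheory Limits MvPolynomial Abelian

namespace Vale.Agent.P287Z.O.H335

open L

variable {W : MvPolynomial (Fin 6) ℂ} [FrOK W]

theorem deg_of_hg {d e : ℤ} {u : Fin 6 →₀ ℕ} (hd : V.Hg (d - e) (monomial u (1 : ℂ))) :
    d = e + 2 * u.degree := by
  have h3 : (monomial u (1 : ℂ)).coeff u ≠ 0 := by simp
  have h4 := hd h3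
  rw [Finsupp.weight_apply, Finsupp.sum] at h4
  rw [Finsupp.degree_apply]
  have h5 : (∑ i ∈ u.support, u i • (2 : ℤ)) = 2 * ((∑ i ∈ u.support, u i : ℕ) : ℤ) := by
    push_cast
    rw [Finset.mul_sum]
    refine Finset.sum_congr rfl fun i _ => ?_
    simp [mul_comm]
  rw [h5] at h4
  linarith

/-- `Ext^j(𝒪(a), 𝒪(b)) = 0` for `j ≥ 1`, `b > a` -/
theorem ext_rank1 (hW : Hz 3 W) (hW0 : W ≠ 0) (j : ℕ) : 1 ≤ j → ∀ d d' : ℤ, Even d → Even d' →
    d' - 4 ≤ d → ∀ x : Ext ((piA W).obj (O1 W d)) ((piA W).obj (O1 W d')) j, x = 0 := by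
  induction j using Nat.strong_induction_on with
  | _ j ih =>
    intro hj d d' hd hd' hdd x
    obtain ⟨e, rfl⟩ : ∃ e, d = 2 * e := by
      obtain ⟨e, he⟩ := hd
      exact ⟨e, by omega⟩
    obtain ⟨j₀, rfl⟩ := Nat.exists_eq_succ_of_ne_zero (by omega : j ≠ 0)
    obtain ⟨n0, hn0⟩ := eff_mon hW e x
    have Q : ∀ k : ℕ, ∀ u : Fin 6 →₀ ℕ, n0 ≤ u.degree + k → ∀ (d : ℤ)
        (hd : V.Hg (d - 2 * e) (monomial u (1 : ℂ))), pre (pm (monomial u 1) hd) x = 0 := by
      intro k
      induction k with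
      | zero => exact fun u hu => hn0 u (by omega)
      | succ k ihk =>
        intro u hu d hd
        have h1 : d = kq (-(e + u.degree)) 0 ∅ := by
          rw [deg_of_hg hd, kq, if_pos Finset.card_empty]
          push_cast
          ring
        subst h1
        refine kos_kill hW hW0 j₀ (-(e + u.degree)) d' hd' ?_ ?_ _ ?_
        · have : (0 : ℤ) ≤ u.degree := Nat.cast_nonneg _
          linarith
        · intro i h1 h2 d1 hd1 h3 y
          exact ih i (by omega) h1 d1 d' hd1 hd' h3 y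
        · intro i d1 h1
          have h2 : V.Hg (d1 - 2 * e) (monomial u (1 : ℂ) * X i) := by
            have := IsWeightedHomogeneous.mul hd h1
            change V.Hg _ _ at this
            rwa [show kq (-(e + u.degree)) 0 ∅ - 2 * e + (d1 - kq (-(e + u.degree)) 0 ∅) =
              d1 - 2 * e by ring] at this
          have h3 : (monomial u (1 : ℂ) * X i : MvPolynomial (Fin 6) ℂ) =
              monomial (u + Finsupp.single i 1) 1 := by
            rw [X, monomial_mul, one_mul]
          have h4 : V.Hg (d1 - 2 * e) (monomial (u + Finsupp.single i 1) (1 : ℂ)) := by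
            rw [← h3]; exact h2
          have h5 : pm (W := W) (X i) h1 ≫ pm (monomial u (1 : ℂ)) hd =
              pm (monomial (u + Finsupp.single i 1) 1) h4 := by
            rw [pm_comp _ _ h1 hd h2]
            congr 1
          rw [← pre_comp, h5]
          refine ihk _ ?_ _ _
          rw [map_add, Finsupp.degree_single]
          omega
    have h0 : V.Hg (2 * e - 2 * e) (monomial 0 (1 : ℂ) : MvPolynomial (Fin 6) ℂ) := by
      rw [sub_self]; exact isWeightedHomogeneous_one _ _
    have h1 := Q n0 0 (by simp) (2 * e) h0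
    have h2 : pm (W := W) (monomial 0 (1 : ℂ)) h0 = 𝟙 (O1 W (2 * e)) := pm_one _ h0
    rw [h2, pre_id] at h1
    exact h1

/-- postcomposition with `π f` -/
noncomputable def post {X Y : GA W} (f : X ⟶ Y) {N : Coh W} {n : ℕ}
    (α : Ext N ((piA W).obj X) n) : Ext N ((piA W).obj Y) n :=
  α.comp (Ext.mk₀ ((piA W).map f)) (add_zero n)

variable {N : Coh W} {n : ℕ}

theorem post_def {X Y : GA W} (f : X ⟶ Y) (α : Ext N ((piA W).obj X) n) :
    post f α = α.comp (Ext.mk₀ ((piA W).map f)) (add_zero n) := rfl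

theorem post_comp {X Y Z : GA W} (f : X ⟶ Y) (g : Y ⟶ Z) (α : Ext N ((piA W).obj X) n) :
    post (f ≫ g) α = post g (post f α) := by
  rw [post_def, post_def, post_def, Functor.map_comp, ← Ext.mk₀_comp_mk₀,
    Ext.comp_assoc_of_third_deg_zero]

theorem post_id {X : GA W} (α : Ext N ((piA W).obj X) n) : post (𝟙 X) α = α := by
  rw [post_def, CategoryTheory.Functor.map_id, Ext.comp_mk₀_id]

theorem post_zero {X Y : GA W} (f : X ⟶ Y) : post f (0 : Ext N ((piA W).obj X) n) = 0 := by
  rw [post_def, Ext.zero_comp]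

theorem zero_post {X Y : GA W} (α : Ext N ((piA W).obj X) n) : post (0 : X ⟶ Y) α = 0 := by
  rw [post_def, Functor.map_zero, Ext.mk₀_zero, Ext.comp_zero]

theorem add_post {X Y : GA W} (f g : X ⟶ Y) (α : Ext N ((piA W).obj X) n) :
    post (f + g) α = post f α + post g α := by
  rw [post_def, post_def, post_def, Functor.map_add, Ext.mk₀_add, Ext.comp_add]

theorem post_sum {X Y : GA W} {τ : Type} (s : Finset τ) (f : τ → (X ⟶ Y))
    (α : Ext N ((piA W).obj X) n) : post (∑ t ∈ s, f t) α = ∑ t ∈ s, post (f t) α := by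
  classical
  induction s using Finset.induction_on with
  | empty => rw [Finset.sum_empty, Finset.sum_empty, zero_post]
  | insert t s ht ih => rw [Finset.sum_insert ht, Finset.sum_insert ht, ← ih, add_post]

theorem ext_pieces' {ι : Type} [Fintype ι] [DecidableEq ι] (q : ι → ℤ)
    (α : Ext N ((piA W).obj (FrA W q)) n) (h : ∀ i, post (prj q i) α = 0) : α = 0 := by
  rw [← post_id α, ← sum_prj_inc q, post_sum]
  refine Finset.sum_eq_zero fun i _ => ?_
  rw [post_comp, h i, post_zero]

theorem ext_odd' {d : ℤ} (hd : ¬ Even d) (α : Ext N ((piA W).obj (O1 W d)) n) : α = 0 := by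
  rw [← post_id α, O1_odd hd, zero_post]

/-- vanishing of `Ext` between sums of line bundles -/
theorem ext_free (hW : Hz 3 W) (hW0 : W ≠ 0) {ι κ : Type} [Fintype ι] [Fintype κ] (q : ι → ℤ)
    (q' : κ → ℤ) (hs : Sep q q') (j : ℕ) (hj : 1 ≤ j)
    (x : Ext ((piA W).obj (FrA W q)) ((piA W).obj (FrA W q')) j) : x = 0 := by
  classical
  refine ext_pieces q x fun i => ?_
  refine ext_pieces' q' _ fun k => ?_
  by_cases hi : Even (q i)
  · by_cases hk : Even (q' k)
    · exact ext_rank1 hW hW0 j hj _ _ hi hk (hs i k hi hk) _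
    · exact ext_odd' hk _
  · exact ext_odd hi _

/-- **B5** -/
theorem extSt (hW : Hz 3 W) (hW0 : W ≠ 0) : ExtSt W := by
  intro ι κ _ _ q q' hs n hn f
  obtain ⟨k, rfl⟩ := Int.eq_ofNat_of_zero_le hn.le
  have h1 := ext_free hW hW0 q q' hs k (by omega) (Ext.homEquiv.symm f)
  have h2 : Ext.homEquiv (Ext.homEquiv.symm f) = f := Equiv.apply_symm_apply _ _
  rw [← h2, h1]
  exact Ext.zero_hom _ _ _

end Vale.Agent.P287Z.O.H335
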