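import Vale.Agent.P287Z.O.H335.Dep
import Vale.Agent.P287Z.O.L.B1b
import Vale.Agent.P287Z.O.L.Free
import Vale.Agent.P287Z.O.L.Props

/-!
# `Hom_{Coh X}(π M, 𝒪(n)) = Hom_A(M, A(n))` (P287 port of P294-L, block B5, first half)
-/

set_option linter.unusedSectionVars false

open CategoryTheory Limits MvPolynomial

namespace Vale.Agent.P287Z.O.H335

open L

variable {W : MvPolynomial (Fin 6) ℂ}

theorem mono_large {M N : GA W} {s : M ⟶ N} (hs : (tors W).monoModSerre s) :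
    ∃ n : ℤ, ∀ a ≥ n, Function.Injective (s.hom.app ⟨a⟩) := by
  obtain ⟨n, hn⟩ := hs
  refine ⟨n, fun a ha => ?_⟩
  rw [injective_iff_map_eq_zero]
  intro x hx
  obtain ⟨u, hu⟩ := GA_exact_apply W (ShortComplex.exact_kernel s) a x hx
  have := hn a ha
  have h0 : u = 0 := @Subsingleton.elim _ this u 0
  rw [← hu, h0, map_zero]

theorem epi_large {M N : GA W} {s : M ⟶ N} (hs : (tors W).epiModSerre s) :
    ∃ n : ℤ, ∀ a ≥ n, Function.Surjective (s.hom.app ⟨a⟩) := by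
  obtain ⟨n, hn⟩ := hs
  refine ⟨n, fun a ha y => ?_⟩
  have := hn a ha
  exact GA_exact_apply W (ShortComplex.exact_cokernel s) a y (@Subsingleton.elim _ this _ _)

theorem iso_large {M N : GA W} {s : M ⟶ N} (hs : (tors W).isoModSerre s) :
    ∃ n : ℤ, ∀ a ≥ n, Function.Bijective (s.hom.app ⟨a⟩) := by
  obtain ⟨m, hm⟩ := mono_large hs.1
  obtain ⟨n, hn⟩ := epi_large hs.2
  exact ⟨max m n, fun a ha => ⟨hm a (le_trans (le_max_left _ _) ha),
    hn a (le_trans (le_max_right _ _) ha)⟩⟩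

variable {ι : Type} [Fintype ι]

theorem map_map (M : GrS) {a b c : Dg} (m : a ⟶ b) (m' : b ⟶ c) (x : M.obj a) :
    M.map m' (M.map m x) = M.map (m ≫ m') x := by
  rw [M.map_comp]; rfl

theorem map_id' (M : GrS) (a : Dg) (x : M.obj a) : M.map (𝟙 a) x = x := by
  rw [M.map_id]; rfl

theorem nat' {M N : GrS} (f : M ⟶ N) {a b : Dg} (m : a ⟶ b) (x : M.obj a) :
    f.app b (M.map m x) = N.map m (f.app a x) :=
  NatTrans.naturality_apply f m x

/-- no torsion, in all degrees -/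
theorem tf_all (hW : Hz 3 W) (hW0 : W ≠ 0) (q : ι → ℤ) (n : ℤ) {a : ℤ} (y : (FrO W q).obj ⟨a⟩)
    (h : ∀ b ≥ n, ∀ m : (⟨a⟩ : Dg) ⟶ ⟨b⟩, (FrO W q).map m y = 0) : y = 0 := by
  obtain ⟨k, hk⟩ : ∃ k : ℕ, n - a ≤ k := ⟨(n - a).toNat, Int.self_le_toNat _⟩
  induction k generalizing a with
  | zero =>
    rw [← map_id' (FrO W q) ⟨a⟩ y]
    exact h a (by push_cast at hk; linarith) (𝟙 _)
  | succ k ih =>
    refine tfO hW hW0 q y fun j => ih _ (fun b hb m => ?_) (by push_cast at hk ⊢; linarith)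
    rw [map_map]
    exact h b hb _

theorem tf_all' (hW : Hz 3 W) (hW0 : W ≠ 0) (q : ι → ℤ) (n : ℤ) {a : ℤ}
    {y z : (FrO W q).obj ⟨a⟩}
    (h : ∀ b ≥ n, ∀ m : (⟨a⟩ : Dg) ⟶ ⟨b⟩, (FrO W q).map m y = (FrO W q).map m z) : y = z := by
  rw [← sub_eq_zero]
  refine tf_all hW hW0 q n (y - z) fun b hb m => ?_
  rw [map_sub, h b hb m, sub_self]

/-- pointwise extension -/
theorem ext_pt (hW : Hz 3 W) (hW0 : W ≠ 0) (q : ι → ℤ) (M : GrS) (n : ℤ)
    (g : ∀ b : ℤ, M.obj ⟨b⟩ →ₗ[ℂ] (FrO W q).obj ⟨b⟩)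
    (hg : ∀ (b c : ℤ) (m : (⟨b⟩ : Dg) ⟶ ⟨c⟩) (x : M.obj ⟨b⟩), n ≤ b →
      g c (M.map m x) = (FrO W q).map m (g b x)) {a : ℤ} (x : M.obj ⟨a⟩) :
    ∃ y : (FrO W q).obj ⟨a⟩, ∀ b ≥ n, ∀ m : (⟨a⟩ : Dg) ⟶ ⟨b⟩,
      (FrO W q).map m y = g b (M.map m x) := by
  obtain ⟨k, hk⟩ : ∃ k : ℕ, n - a ≤ k := ⟨(n - a).toNat, Int.self_le_toNat _⟩
  induction k generalizing a with
  | zero =>
    exact ⟨g a x, fun b hb m => (hg a b m x (by push_cast at hk; linarith)).symm⟩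
  | succ k ih =>
    by_cases ha : n ≤ a
    · exact ⟨g a x, fun b hb m => (hg a b m x ha).symm⟩
    choose y hy using fun j => ih (M.map (xm j a) x) (by push_cast at hk ⊢; linarith)
    obtain ⟨z, hz⟩ := dpO hW hW0 q y (by
      intro j l
      refine tf_all' hW hW0 q n fun b hb m => ?_
      have hc : xm l a ≫ xm j (a + 1) ≫ m = xm j a ≫ xm l (a + 1) ≫ m := by
        apply Subtype.ext
        change Finsupp.single l 1 + (Finsupp.single j 1 + m.1) =
          Finsupp.single j 1 + (Finsupp.single l 1 + m.1)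
        rw [add_left_comm]
      rw [map_map, map_map, hy l b hb, hy j b hb, map_map, map_map, hc])
    refine ⟨z, fun b hb m => ?_⟩
    have hm : m.1 ≠ 0 := by
      intro h0
      have h1 := m.2
      rw [h0] at h1
      simp only [map_zero, Nat.cast_zero, add_zero] at h1
      change a = b at h1
      omega
    obtain ⟨j, hj⟩ := Finsupp.ne_iff.1 hm
    have hj' : Finsupp.single j 1 ≤ m.1 := by
      rw [Finsupp.single_le_iff]
      exact Nat.one_le_iff_ne_zero.2 hj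
    have hm' : a + 1 + ((m.1 - Finsupp.single j 1).degree : ℤ) = b := by
      have h1 : (m.1.degree : ℤ) = ((m.1 - Finsupp.single j 1).degree : ℤ) + 1 := by
        conv_lhs => rw [← tsub_add_cancel_of_le hj']
        rw [map_add, Finsupp.degree_single]
        push_cast
        ring
      have h2 : a + (m.1.degree : ℤ) = b := m.2
      linarith
    have hmm : m = xm j a ≫ (⟨m.1 - Finsupp.single j 1, hm'⟩ : (⟨a + 1⟩ : Dg) ⟶ ⟨b⟩) := by
      apply Subtype.ext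
      change m.1 = Finsupp.single j 1 + (m.1 - Finsupp.single j 1)
      rw [add_tsub_cancel_of_le hj']
    rw [hmm, ← map_map, ← map_map, hz j, hy j b hb]

/-- extension of a partial homomorphism into a free module -/
theorem ext_hom (hW : Hz 3 W) (hW0 : W ≠ 0) (q : ι → ℤ) (M : GrS) (n : ℤ)
    (g : ∀ b : ℤ, M.obj ⟨b⟩ →ₗ[ℂ] (FrO W q).obj ⟨b⟩)
    (hg : ∀ (b c : ℤ) (m : (⟨b⟩ : Dg) ⟶ ⟨c⟩) (x : M.obj ⟨b⟩), n ≤ b →
      g c (M.map m x) = (FrO W q).map m (g b x)) :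
    ∃ h : M ⟶ FrO W q, ∀ b ≥ n, ∀ x : M.obj ⟨b⟩, h.app ⟨b⟩ x = g b x := by
  choose y hy using fun (a : ℤ) (x : M.obj ⟨a⟩) => ext_pt hW hW0 q M n g hg x
  let hL : ∀ a : ℤ, M.obj ⟨a⟩ →ₗ[ℂ] (FrO W q).obj ⟨a⟩ := fun a =>
    { toFun := fun x => y a x
      map_add' := fun x x' => by
        refine tf_all' hW hW0 q n fun b hb m => ?_
        rw [map_add, hy _ _ b hb, hy _ _ b hb, hy _ _ b hb, map_add, map_add]
      map_smul' := fun c x => by
        refine tf_all' hW hW0 q n fun b hb m => ?_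
        rw [RingHom.id_apply, map_smul, hy _ _ b hb, hy _ _ b hb, map_smul, map_smul] }
  refine ⟨{ app := fun a => ModuleCat.ofHom (hL a.deg)
            naturality := ?_ }, ?_⟩
  · intro a c m
    ext x
    change y c.deg (M.map m x) = (FrO W q).map m (y a.deg x)
    refine tf_all' hW hW0 q n (a := c.deg) fun b hb m' => ?_
    have e1 := hy c.deg (M.map m x) b hb m'
    have e2 := hy a.deg x b hb (m ≫ m')
    rw [← map_map, ← map_map] at e2
    exact e1.trans e2.symm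
  · intro b hb x
    change y b x = g b x
    have := hy b x b hb (𝟙 _)
    rw [map_id', map_id'] at this
    exact this

/-- `Hom_A(M, F) = Hom_{Coh X}(π M, π F)` for every `M` and every free module `F` -/
theorem pi_bij [FrOK W] (hW : Hz 3 W) (hW0 : W ≠ 0) (q : ι → ℤ) (M : GA W) :
    Function.Bijective (fun f : M ⟶ FrA W q => (piA W).map f) := by
  constructor
  · intro f g hfg
    obtain ⟨L, s, hs, h⟩ := (MorphismProperty.map_eq_iff_precomp (piA W) (tors W).isoModSerre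
      f g).1 hfg
    obtain ⟨n, hn⟩ := iso_large hs
    apply ObjectProperty.hom_ext
    ext a x
    refine tf_all' hW hW0 q n (a := a.deg) fun b hb m => ?_
    change (FrO W q).map m (f.hom.app ⟨a.deg⟩ x) = (FrO W q).map m (g.hom.app ⟨a.deg⟩ x)
    have e1 := nat' f.hom m x
    have e2 := nat' g.hom m x
    obtain ⟨u, hu⟩ := (hn b hb).2 (M.obj.map m x)
    have e3 : f.hom.app ⟨b⟩ (s.hom.app ⟨b⟩ u) = g.hom.app ⟨b⟩ (s.hom.app ⟨b⟩ u) :=
      congrArg (fun t : L ⟶ FrA W q => t.hom.app ⟨b⟩ u) h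
    rw [hu] at e3
    exact e1.symm.trans (e3.trans e2)
  · intro φ
    obtain ⟨ψ, hψ⟩ := Localization.exists_rightFraction (piA W) (tors W).isoModSerre φ
    obtain ⟨n, hn⟩ := iso_large ψ.hs
    classical
    let g : ∀ b : ℤ, M.obj.obj ⟨b⟩ →ₗ[ℂ] (FrO W q).obj ⟨b⟩ := fun b =>
      if hb : b ≥ n then (ψ.f.hom.app ⟨b⟩).hom ∘ₗ
        ((LinearEquiv.ofBijective (ψ.s.hom.app ⟨b⟩).hom (hn b hb)).symm :
          M.obj.obj ⟨b⟩ →ₗ[ℂ] ψ.X'.obj.obj ⟨b⟩) else 0
    have hgs : ∀ b ≥ n, ∀ u : ψ.X'.obj.obj ⟨b⟩,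
        g b (ψ.s.hom.app ⟨b⟩ u) = ψ.f.hom.app ⟨b⟩ u := by
      intro b hb u
      have h1 : g b = (ψ.f.hom.app ⟨b⟩).hom ∘ₗ
        ((LinearEquiv.ofBijective (ψ.s.hom.app ⟨b⟩).hom (hn b hb)).symm :
          M.obj.obj ⟨b⟩ →ₗ[ℂ] ψ.X'.obj.obj ⟨b⟩) := dif_pos hb
      rw [h1]
      change (ψ.f.hom.app ⟨b⟩).hom ((LinearEquiv.ofBijective (ψ.s.hom.app ⟨b⟩).hom
        (hn b hb)).symm ((ψ.s.hom.app ⟨b⟩).hom u)) = _
      rw [LinearEquiv.ofBijective_symm_apply_apply]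
    obtain ⟨h, hh⟩ := ext_hom hW hW0 q M.obj n g (by
      intro b c m x hb
      have hc : n ≤ c := by
        have h1 : b + (m.1.degree : ℤ) = c := m.2
        have h2 : (0 : ℤ) ≤ m.1.degree := Nat.cast_nonneg _
        linarith
      obtain ⟨u, rfl⟩ := (hn b hb).2 x
      rw [hgs b hb, ← nat', hgs c hc, nat']
      rfl)
    have hsh : ψ.s ≫ ObjectProperty.homMk (P := grA W) h = ψ.f := by
      apply ObjectProperty.hom_ext
      ext a x
      refine tf_all' hW hW0 q n (a := a.deg) fun b hb m => ?_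
      change (FrO W q).map m (h.app ⟨a.deg⟩ (ψ.s.hom.app ⟨a.deg⟩ x)) =
        (FrO W q).map m (ψ.f.hom.app ⟨a.deg⟩ x)
      have e1 := nat' ψ.f.hom m x
      have e2 := nat' ψ.s.hom m x
      have e3 := nat' h m (ψ.s.hom.app ⟨a.deg⟩ x)
      rw [← e3, ← e2, hh b hb, hgs b hb]
      exact e1
    refine ⟨ObjectProperty.homMk h, ?_⟩
    change (piA W).map _ = φ
    have := Localization.inverts (piA W) (tors W).isoModSerre ψ.s ψ.hs
    rw [hψ, ← cancel_epi ((piA W).map ψ.s), MorphismProperty.RightFraction.map_s_comp_map,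
      ← Functor.map_comp, hsh]

theorem homSt [FrOK W] (hW : Hz 3 W) (hW0 : W ≠ 0) : HomSt W :=
  fun q q' _ => pi_bij hW hW0 q' (FrA W q)

end Vale.Agent.P287Z.O.H335
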