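import Vale.Agent.P287Z.O.H335.Hom
import Vale.Agent.P287Z.O.H335.E1
import Vale.Agent.P287Z.O.H409.Eff

/-!
# The Koszul complex of line bundles on `X` (P287 port of P294-L, block B5)
-/

set_option linter.unusedSectionVars false

open CategoryTheory Limits MvPolynomial

namespace Vale.Agent.P287Z.O.H335

open L

variable {W : MvPolynomial (Fin 6) ℂ}

/-! ### exactness in `Coh X` -/

theorem coh_exact (S : ShortComplex (GA W)) (n : ℤ)
    (h : ∀ b ≥ n, ∀ y : S.X₂.obj.obj ⟨b⟩, S.g.hom.app ⟨b⟩ y = 0 →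
      ∃ x : S.X₁.obj.obj ⟨b⟩, S.f.hom.app ⟨b⟩ x = y) : (S.map (piA W)).Exact := by
  rw [ShortComplex.exact_iff_isZero_homology]
  have h1 : IsZero ((piA W).obj S.homology) := by
    rw [piA_isZero_iff]
    refine ⟨n, fun a ha => ?_⟩
    have h2 : ((S.map (grA W).ι).map ((evaluation Dg (ModuleCat.{0} ℂ)).obj ⟨a⟩)).Exact :=
      (ShortComplex.moduleCat_exact_iff _).2 (h a ha)
    rw [ShortComplex.exact_iff_isZero_homology] at h2
    have h3 : IsZero (((grA W).ι.obj S.homology).obj ⟨a⟩) := by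
      refine h2.of_iso ?_
      exact (((evaluation Dg (ModuleCat.{0} ℂ)).obj ⟨a⟩).mapIso
        (S.mapHomologyIso (grA W).ι)).symm ≪≫
          ((S.map (grA W).ι).mapHomologyIso ((evaluation Dg (ModuleCat.{0} ℂ)).obj ⟨a⟩)).symm
    exact ModuleCat.subsingleton_of_isZero h3
  exact h1.of_iso (S.mapHomologyIso (piA W))

theorem coh_epi {M N : GA W} (f : M ⟶ N) (n : ℤ)
    (h : ∀ b ≥ n, Function.Surjective (f.hom.app ⟨b⟩)) : Epi ((piA W).map f) := by
  rw [ObjectProperty.SerreClassLocalization.epi_map_iff (piA W) (tors W)]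
  refine ⟨n, fun a ha => ⟨fun z z' => ?_⟩⟩
  have h0 : ∀ z : (cokernel f).obj.obj ⟨a⟩, z = 0 := by
    intro z
    obtain ⟨y, rfl⟩ := GA_app_surjective W (cokernel.π f) a z
    obtain ⟨x, rfl⟩ := h a ha y
    have h1 : (f ≫ cokernel.π f).hom.app ⟨a⟩ x = (0 : M ⟶ cokernel f).hom.app ⟨a⟩ x := by
      rw [cokernel.condition]
    exact h1
  rw [h0 z, h0 z']

theorem epi_large' {M N : GA W} (f : M ⟶ N) (h : Epi ((piA W).map f)) :
    ∃ n : ℤ, ∀ a ≥ n, Function.Surjective (f.hom.app ⟨a⟩) := by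
  rw [ObjectProperty.SerreClassLocalization.epi_map_iff (piA W) (tors W)] at h
  exact epi_large h

/-! ### the Koszul matrices -/

/-- the degrees of the generators of `K_j` -/
def kq (a : ℤ) (j : ℕ) (I : Finset (Fin 6)) : ℤ := if I.card = j then 2 * ((j : ℤ) - a) else 1

/-- the Koszul matrix `K_{j+1} → K_j` -/
noncomputable def kd (j : ℕ) : Matrix (Finset (Fin 6)) (Finset (Fin 6)) (MvPolynomial (Fin 6) ℂ) :=
  fun J I => if J.card = j then ∑ i ∈ Jᶜ, if insert i J = I then sg i J • X i else 0 else 0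

theorem kd_hg (a : ℤ) (j : ℕ) : HgM (kq a (j + 1)) (kq a j) (kd j) := by
  intro J I
  by_cases hJ : J.card = j
  · rw [kd, if_pos hJ]
    refine Submodule.sum_mem (weightedHomogeneousSubmodule ℂ _ _) fun i hi => ?_
    split_ifs with h
    · have hI : I.card = j + 1 := by
        rw [← h, Finset.card_insert_of_notMem (by simpa using hi), hJ]
      rw [kq, kq, if_pos hI, if_pos hJ]
      refine (weightedHomogeneousSubmodule ℂ _ _).toAddSubgroup.zsmul_mem ?_ _
      have := hg_X i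
      rwa [show (2 : ℤ) = 2 * (((j + 1 : ℕ) : ℤ) - a) - 2 * ((j : ℤ) - a) by push_cast; ring] at this
    · exact Submodule.zero_mem _
  · rw [kd, if_neg hJ]
    exact isWeightedHomogeneous_zero _ _ _

theorem kd_mulVec (j : ℕ) (v : Finset (Fin 6) → MvPolynomial (Fin 6) ℂ) (J : Finset (Fin 6)) :
    (kd j).mulVec v J = if J.card = j then io (mu (xs (Fin 6))) v J else 0 := by
  rw [Matrix.mulVec, dotProduct]
  by_cases hJ : J.card = j
  · rw [if_pos hJ]
    simp only [kd, if_pos hJ]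
    rw [io]
    simp only [Finset.sum_mul]
    rw [Finset.sum_comm]
    refine Finset.sum_congr rfl fun i _ => ?_
    rw [Finset.sum_eq_single (insert i J)]
    · rw [if_pos rfl, smul_mul_assoc, mu_apply]
    · intro I _ hI
      rw [if_neg (fun h => hI h.symm), zero_mul]
    · intro h
      exact absurd (Finset.mem_univ _) h
  · rw [if_neg hJ]
    simp only [kd, if_neg hJ, zero_mul, Finset.sum_const_zero]

theorem vec_kd (j : ℕ) (f : Finset (Fin 6) → MvPolynomial (Fin 6) ℂ) (hf : ∀ J, J.card ≠ j → f J = 0)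
    (I : Finset (Fin 6)) : ∑ J, f J * kd j J I = ep (mu (xs (Fin 6))) f I := by
  classical
  have h1 : ∀ J, f J * kd j J I =
      ∑ i, if i ∉ J ∧ insert i J = I then f J * (sg i J • X i) else 0 := by
    intro J
    by_cases hJ : J.card = j
    · rw [kd, if_pos hJ, Finset.mul_sum, ← Finset.sum_filter_add_sum_filter_not Finset.univ
        (fun i => i ∉ J)]
      rw [Finset.sum_eq_zero (s := Finset.univ.filter (fun i => ¬ i ∉ J)), add_zero]
      · refine Finset.sum_congr (by ext i; simp) fun i hi => ?_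
        have hi' : i ∉ J := by simpa using hi
        by_cases h : insert i J = I
        · rw [if_pos h, if_pos ⟨hi', h⟩]
        · rw [if_neg h, if_neg (fun h' => h h'.2), mul_zero]
      · intro i hi
        rw [if_neg]
        rintro ⟨h', -⟩
        simp only [Finset.mem_filter, Finset.mem_univ, true_and] at hi
        exact hi h'
    · rw [hf J hJ, zero_mul, Finset.sum_eq_zero]
      intro i _
      simp
  rw [Finset.sum_congr rfl fun J _ => h1 J, Finset.sum_comm, ep,
    ← Finset.sum_filter_add_sum_filter_not Finset.univ (fun i => i ∈ I)]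
  rw [Finset.sum_eq_zero (s := Finset.univ.filter (fun i => ¬ i ∈ I)), add_zero]
  · refine Finset.sum_congr (by ext i; simp) fun i hi => ?_
    have hi' : i ∈ I := by simpa using hi
    rw [Finset.sum_eq_single (I.erase i)]
    · rw [if_pos ⟨Finset.notMem_erase _ _, Finset.insert_erase hi'⟩, sg_erase_self, mu_apply,
        mul_smul_comm, mul_comm]
    · intro J _ hJ
      rw [if_neg]
      rintro ⟨h2, h3⟩
      apply hJ
      rw [← h3, Finset.erase_insert h2]
    · intro h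
      exact absurd (Finset.mem_univ _) h
  · intro i hi
    refine Finset.sum_eq_zero fun J _ => ?_
    rw [if_neg]
    rintro ⟨-, h3⟩
    simp only [Finset.mem_filter, Finset.mem_univ, true_and] at hi
    apply hi
    rw [← h3]
    exact Finset.mem_insert_self _ _

/-! ### the Koszul complex -/

variable [FrOK W]

variable (W) in
/-- `K_j`, a sum of copies of `A(a - j)` -/
noncomputable def Kz (a : ℤ) (j : ℕ) : GA W := FrA W (kq a j)

variable (W) in
/-- the differential -/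
noncomputable def Kd (a : ℤ) (j : ℕ) : Kz W a (j + 1) ⟶ Kz W a j := matA W (kd j) (kd_hg a j)

theorem Kd_mk (a : ℤ) (j : ℕ) {b : ℤ} (v : Finset (Fin 6) → MvPolynomial (Fin 6) ℂ)
    (h : ∀ I, V.Hg (2 * b - kq a (j + 1) I) (v I)) :
    (Kd W a j).hom.app ⟨b⟩ (FrO.mk W v h) = FrO.mk W ((kd j).mulVec v) ((kd_hg a j).mulVec h) :=
  rfl

theorem hz_of_kq {a b : ℤ} {j : ℕ} {v : Finset (Fin 6) → MvPolynomial (Fin 6) ℂ}
    (h : ∀ I, V.Hg (2 * b - kq a j I) (v I)) :
    (∀ I, Hz (a + b - I.card) (v I)) ∧ ∀ I, I.card ≠ j → v I = 0 := by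
  have h2 : ∀ I, I.card ≠ j → v I = 0 := by
    intro I hI
    have := h I
    rw [kq, if_neg hI] at this
    refine hgodd this ?_
    rw [Int.not_even_iff_odd]
    exact (even_two_mul b).sub_odd odd_one
  refine ⟨fun I => ?_, h2⟩
  by_cases hI : I.card = j
  · have := h I
    rw [kq, if_pos hI, show 2 * b - 2 * ((j : ℤ) - a) = 2 * (a + b - j) by ring, hg_hz] at this
    rw [hI]
    exact this
  · rw [h2 I hI]
    exact Hz.zero _

theorem kq_of_hz {a b : ℤ} {j : ℕ} {v : Finset (Fin 6) → MvPolynomial (Fin 6) ℂ}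
    (h : ∀ I, Hz (a + b - I.card) (v I)) (h0 : ∀ I, I.card ≠ j → v I = 0) (I : Finset (Fin 6)) :
    V.Hg (2 * b - kq a j I) (v I) := by
  by_cases hI : I.card = j
  · rw [kq, if_pos hI, show 2 * b - 2 * ((j : ℤ) - a) = 2 * (a + b - j) by ring, hg_hz, ← hI]
    exact h I
  · rw [h0 I hI]
    exact isWeightedHomogeneous_zero _ _ _

theorem Kd_Kd (a : ℤ) (j : ℕ) : Kd W a (j + 1) ≫ Kd W a j = 0 := by
  apply ObjectProperty.hom_ext
  ext b x
  obtain ⟨v, hv, rfl⟩ := FrO.mk_surj W x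
  change FrO.mk W ((kd j).mulVec ((kd (j + 1)).mulVec v))
    ((kd_hg a j).mulVec ((kd_hg a (j + 1)).mulVec hv)) = (0 : (FrO W (kq a j)).obj ⟨b.deg⟩)
  rw [mk_zero]
  intro J
  rw [kd_mulVec]
  split_ifs with hJ
  · have h1 : io (mu (xs (Fin 6))) ((kd (j + 1)).mulVec v) J =
        io (mu (xs (Fin 6))) (io (mu (xs (Fin 6))) v) J := by
      refine Finset.sum_congr rfl fun i hi => ?_
      have hi' : i ∉ J := by simpa using hi
      rw [kd_mulVec, if_pos (by rw [Finset.card_insert_of_notMem hi', hJ])]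
    rw [h1, io_io _ (mu_comm _ _)]
    exact dvd_zero _
  · exact dvd_zero _

theorem K_ex (hW : Hz 3 W) (hW0 : W ≠ 0) (a : ℤ) (j : ℕ) {b : ℤ} (h0 : a + b ≠ 0) (h5 : a + b ≠ 3)
    (v : Finset (Fin 6) → MvPolynomial (Fin 6) ℂ) (hv : ∀ I, V.Hg (2 * b - kq a j I) (v I))
    (h : ∀ J, W ∣ io (mu (xs (Fin 6))) v J) :
    ∃ x : (Kz W a (j + 1)).obj.obj ⟨b⟩, (Kd W a j).hom.app ⟨b⟩ x = FrO.mk W v hv := by
  obtain ⟨h1, h2⟩ := hz_of_kq hv
  obtain ⟨g, hg1, hg2, hg3⟩ := ioW_exact (σ := Fin 6) hW hW0 j (a + b) h0 h5 v h1 h2 h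
  refine ⟨FrO.mk W g (kq_of_hz hg1 hg2), ?_⟩
  change FrO.mk W ((kd j).mulVec g) ((kd_hg a j).mulVec (kq_of_hz hg1 hg2)) = FrO.mk W v hv
  rw [FrO.mk_eq]
  intro J
  rw [kd_mulVec]
  split_ifs with hJ
  · rw [← dvd_neg, neg_sub]
    exact hg3 J
  · rw [h2 J hJ, sub_zero]
    exact dvd_zero _

theorem K_exact (hW : Hz 3 W) (hW0 : W ≠ 0) (a : ℤ) (j : ℕ) :
    ((ShortComplex.mk (Kd W a (j + 1)) (Kd W a j) (Kd_Kd a j)).map (piA W)).Exact := by
  refine coh_exact _ (6 - a) fun b hb y hy => ?_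
  obtain ⟨v, hv, rfl⟩ := FrO.mk_surj W y
  refine K_ex hW hW0 a (j + 1) (by linarith) (by linarith) v hv fun J => ?_
  have h1 : FrO.mk W ((kd j).mulVec v) ((kd_hg a j).mulVec hv) =
    (0 : (FrO W (kq a j)).obj ⟨b⟩) := hy
  rw [mk_zero] at h1
  have h2 := h1 J
  rw [kd_mulVec] at h2
  split_ifs at h2 with hJ
  · exact h2
  · rw [io, Finset.sum_eq_zero]
    · exact dvd_zero _
    · intro i hi
      have hi' : i ∉ J := by simpa using hi
      rw [(hz_of_kq hv).2 (insert i J) (by rw [Finset.card_insert_of_notMem hi']; omega), map_zero,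
        smul_zero]

theorem K_epi (hW : Hz 3 W) (hW0 : W ≠ 0) (a : ℤ) : Epi ((piA W).map (Kd W a 0)) := by
  refine coh_epi _ (6 - a) fun b hb y => ?_
  obtain ⟨v, hv, rfl⟩ := FrO.mk_surj W y
  refine K_ex hW hW0 a 0 (by linarith) (by linarith) v hv fun J => ?_
  rw [io, Finset.sum_eq_zero]
  · exact dvd_zero _
  · intro i hi
    have hi' : i ∉ J := by simpa using hi
    rw [(hz_of_kq hv).2 (insert i J) (by rw [Finset.card_insert_of_notMem hi']; omega), map_zero,
      smul_zero]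

end Vale.Agent.P287Z.O.H335
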