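import Mathlib

/-!
# Wedge and contraction with families of commuting operators
-/

set_option linter.unusedSectionVars false

namespace Vale.Agent.P287Z.O.H335

open Finset

variable {σ : Type*} [Fintype σ] [LinearOrder σ] {M : Type*} [AddCommGroup M]

/-- the Koszul sign -/
def sg (i : σ) (J : Finset σ) : ℤ := (-1) ^ (J.filter (· < i)).card

/-- contraction -/
def io (a : σ → M →+ M) (f : Finset σ → M) (J : Finset σ) : M :=
  ∑ i ∈ Jᶜ, sg i J • a i (f (insert i J))

/-- wedge product -/
def ep (b : σ → M →+ M) (f : Finset σ → M) (J : Finset σ) : M :=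
  ∑ i ∈ J, sg i J • b i (f (J.erase i))

theorem sg_sq (i : σ) (J : Finset σ) : sg i J * sg i J = 1 := by
  rw [sg, ← pow_add, ← two_mul, pow_mul]
  simp

theorem sg_insert_self (i : σ) (J : Finset σ) : sg i (insert i J) = sg i J := by
  rw [sg, sg, filter_insert, if_neg (lt_irrefl i)]

theorem sg_erase_self (i : σ) (J : Finset σ) : sg i (J.erase i) = sg i J := by
  rw [sg, sg, filter_erase, erase_eq_of_notMem (by simp)]

theorem sg_insert {i k : σ} {J : Finset σ} (hi : i ∉ J) :
    sg k (insert i J) = (if i < k then -1 else 1) * sg k J := by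
  rw [sg, sg, filter_insert]
  split_ifs with h
  · rw [card_insert_of_notMem (by simp [hi]), pow_succ]
    ring
  · rw [one_mul]

theorem sg_erase {i k : σ} {J : Finset σ} (hk : k ∈ J) :
    sg i (J.erase k) = (if k < i then -1 else 1) * sg i J := by
  have h := sg_insert (i := k) (k := i) (J := J.erase k) (notMem_erase k J)
  rw [insert_erase hk] at h
  rw [h, ← mul_assoc]
  split_ifs <;> simp

theorem sg_cross {i k : σ} {J : Finset σ} (hi : i ∉ J) (hk : k ∈ J) :
    sg i J * sg k (insert i J) = - (sg k J * sg i (J.erase k)) := by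
  rw [sg_insert hi, sg_erase hk]
  have hne : i ≠ k := by rintro rfl; exact hi hk
  rcases lt_or_gt_of_ne hne with h | h
  · rw [if_pos h, if_neg h.not_gt]; ring
  · rw [if_neg h.not_gt, if_pos h]; ring

/-- the anticommutator of a contraction and a wedge product -/
theorem io_ep (a b : σ → M →+ M) (hab : ∀ i k, i ≠ k → ∀ x, a i (b k x) = b k (a i x))
    (f : Finset σ → M) (J : Finset σ) :
    io a (ep b f) J + ep b (io a f) J = ∑ i ∈ Jᶜ, a i (b i (f J)) + ∑ i ∈ J, b i (a i (f J)) := by
  have h1 : io a (ep b f) J = ∑ i ∈ Jᶜ, a i (b i (f J)) +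
      ∑ i ∈ Jᶜ, ∑ k ∈ J, (sg i J * sg k (insert i J)) • a i (b k (f (insert i (J.erase k)))) := by
    rw [← sum_add_distrib]
    refine sum_congr rfl fun i hi => ?_
    have hi' : i ∉ J := by simpa using hi
    rw [ep, sum_insert hi', map_add, smul_add, map_sum, smul_sum]
    congr 1
    · rw [map_zsmul, smul_smul, sg_insert_self, sg_sq, one_smul, erase_insert hi']
    · refine sum_congr rfl fun k hk => ?_
      have hne : i ≠ k := by rintro rfl; exact hi' hk
      rw [map_zsmul, smul_smul, erase_insert_of_ne hne]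
  have h2 : ep b (io a f) J = ∑ i ∈ J, b i (a i (f J)) +
      ∑ k ∈ J, ∑ i ∈ Jᶜ, (sg k J * sg i (J.erase k)) • b k (a i (f (insert i (J.erase k)))) := by
    rw [← sum_add_distrib]
    refine sum_congr rfl fun k hk => ?_
    have hc : (J.erase k)ᶜ = insert k Jᶜ := by
      ext x
      by_cases hx : x = k
      · simp [hx]
      · simp [hx]
    rw [io, hc, sum_insert (by simpa using hk), map_add, smul_add, map_sum, smul_sum]
    congr 1
    · rw [map_zsmul, smul_smul, sg_erase_self, sg_sq, one_smul, insert_erase hk]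
    · refine sum_congr rfl fun i hi => ?_
      rw [map_zsmul, smul_smul]
  have h3 : ∑ i ∈ Jᶜ, ∑ k ∈ J, (sg i J * sg k (insert i J)) •
      a i (b k (f (insert i (J.erase k)))) = - ∑ k ∈ J, ∑ i ∈ Jᶜ,
        (sg k J * sg i (J.erase k)) • b k (a i (f (insert i (J.erase k)))) := by
    rw [sum_comm, ← sum_neg_distrib]
    refine sum_congr rfl fun k hk => ?_
    rw [← sum_neg_distrib]
    refine sum_congr rfl fun i hi => ?_
    have hi' : i ∉ J := by simpa using hi
    have hne : i ≠ k := by rintro rfl; exact hi' hk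
    rw [sg_cross hi' hk, neg_smul, hab i k hne]
  rw [h1, h2, h3]
  abel

/-- the square of a wedge product vanishes -/
theorem ep_ep [IsAddTorsionFree M] (b : σ → M →+ M) (hb : ∀ i k, ∀ x, b i (b k x) = b k (b i x))
    (f : Finset σ → M) (J : Finset σ) : ep b (ep b f) J = 0 := by
  have h1 : ep b (ep b f) J = ∑ i ∈ J, ∑ k ∈ J.erase i,
      (sg i J * sg k (J.erase i)) • b i (b k (f ((J.erase i).erase k))) := by
    refine sum_congr rfl fun i hi => ?_
    rw [ep, map_sum, smul_sum]
    exact sum_congr rfl fun k _ => by rw [map_zsmul, smul_smul]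
  have h2 : ep b (ep b f) J = - ep b (ep b f) J := by
    rw [h1, ← sum_neg_distrib]
    have h3 := sum_comm' (s := J) (t := fun i => J.erase i) (t' := J) (s' := fun i => J.erase i)
      (f := fun i k => (sg i J * sg k (J.erase i)) • b i (b k (f ((J.erase i).erase k))))
      (by intro x y; simp only [mem_erase]; tauto)
    rw [h3]
    refine sum_congr rfl fun k hk => ?_
    rw [← sum_neg_distrib]
    refine sum_congr rfl fun i hi => ?_
    have hi' : i ≠ k := ne_of_mem_erase hi
    have hiJ : i ∈ J := mem_of_mem_erase hi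
    rw [hb i k, erase_right_comm, ← neg_smul]
    congr 1
    rw [sg_erase hiJ, sg_erase hk]
    rcases lt_or_gt_of_ne hi' with h | h
    · rw [if_pos h, if_neg h.not_gt]; ring
    · rw [if_neg h.not_gt, if_pos h]; ring
  exact self_eq_neg.1 h2

/-- the square of a contraction vanishes -/
theorem io_io [IsAddTorsionFree M] (b : σ → M →+ M) (hb : ∀ i k, ∀ x, b i (b k x) = b k (b i x))
    (f : Finset σ → M) (J : Finset σ) : io b (io b f) J = 0 := by
  have h1 : io b (io b f) J = ∑ i ∈ Jᶜ, ∑ k ∈ (insert i J)ᶜ,
      (sg i J * sg k (insert i J)) • b i (b k (f (insert k (insert i J)))) := by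
    refine sum_congr rfl fun i hi => ?_
    rw [io, map_sum, smul_sum]
    exact sum_congr rfl fun k _ => by rw [map_zsmul, smul_smul]
  have h2 : io b (io b f) J = - io b (io b f) J := by
    rw [h1, ← sum_neg_distrib]
    have h3 := sum_comm' (s := Jᶜ) (t := fun i => (insert i J)ᶜ) (t' := Jᶜ)
      (s' := fun i => (insert i J)ᶜ)
      (f := fun i k => (sg i J * sg k (insert i J)) • b i (b k (f (insert k (insert i J)))))
      (by intro x y; simp only [mem_compl, mem_insert]; tauto)
    rw [h3]
    refine sum_congr rfl fun k hk => ?_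
    rw [← sum_neg_distrib]
    refine sum_congr rfl fun i hi => ?_
    have hkJ : k ∉ J := by simpa using hk
    have hi2 : i ≠ k ∧ i ∉ J := by simpa using hi
    rw [hb i k, insert_comm, ← neg_smul]
    congr 1
    rw [sg_insert hi2.2, sg_insert hkJ]
    rcases lt_or_gt_of_ne hi2.1 with h | h
    · rw [if_pos h, if_neg h.not_gt]; ring
    · rw [if_neg h.not_gt, if_pos h]; ring
  exact self_eq_neg.1 h2

theorem io_add (a : σ → M →+ M) (f g : Finset σ → M) (J : Finset σ) :
    io a (f + g) J = io a f J + io a g J := by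
  simp [io, sum_add_distrib]

theorem io_sub (a : σ → M →+ M) (f g : Finset σ → M) (J : Finset σ) :
    io a (f - g) J = io a f J - io a g J := by
  simp [io, smul_sub, sum_sub_distrib]

theorem ep_add (a : σ → M →+ M) (f g : Finset σ → M) (J : Finset σ) :
    ep a (f + g) J = ep a f J + ep a g J := by
  simp [ep, sum_add_distrib]

theorem ep_sub (a : σ → M →+ M) (f g : Finset σ → M) (J : Finset σ) :
    ep a (f - g) J = ep a f J - ep a g J := by
  simp [ep, smul_sub, sum_sub_distrib]

theorem io_map (a : σ → M →+ M) (t : M →+ M) (h : ∀ i x, a i (t x) = t (a i x))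
    (f : Finset σ → M) (J : Finset σ) : io a (fun I => t (f I)) J = t (io a f J) := by
  simp only [io, map_sum, map_zsmul, h]

theorem ep_map (a : σ → M →+ M) (t : M →+ M) (h : ∀ i x, a i (t x) = t (a i x))
    (f : Finset σ → M) (J : Finset σ) : ep a (fun I => t (f I)) J = t (ep a f J) := by
  simp only [ep, map_sum, map_zsmul, h]

end Vale.Agent.P287Z.O.H335
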