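import Vale.Agent.P287Z.O.H335.Kos

/-!
# The Koszul complex of the variables: Euler homotopy
-/

set_option linter.unusedSectionVars false

namespace Vale.Agent.P287Z.O.H335

open Finset MvPolynomial

/-- homogeneous of degree `n : ℤ` -/
def Hz {σ : Type*} (n : ℤ) (f : MvPolynomial σ ℂ) : Prop :=
  f.IsWeightedHomogeneous (fun _ => (1 : ℤ)) n

variable {σ : Type*} [Fintype σ] [LinearOrder σ]

/-- multiplication operators -/
noncomputable def mu (l : σ → MvPolynomial σ ℂ) (i : σ) : MvPolynomial σ ℂ →+ MvPolynomial σ ℂ :=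
  AddMonoidHom.mulLeft (l i)

/-- derivations -/
noncomputable def dx (i : σ) : MvPolynomial σ ℂ →+ MvPolynomial σ ℂ :=
  (pderiv i : Derivation ℂ (MvPolynomial σ ℂ) (MvPolynomial σ ℂ)).toLinearMap.toAddMonoidHom

theorem mu_apply (l : σ → MvPolynomial σ ℂ) (i : σ) (f : MvPolynomial σ ℂ) :
    mu l i f = l i * f := rfl

theorem dx_apply (i : σ) (f : MvPolynomial σ ℂ) : dx i f = pderiv i f := rfl

theorem Hz.zero (n : ℤ) : Hz n (0 : MvPolynomial σ ℂ) := isWeightedHomogeneous_zero _ _ _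

theorem Hz.add {n : ℤ} {f g : MvPolynomial σ ℂ} (hf : Hz n f) (hg : Hz n g) : Hz n (f + g) :=
  IsWeightedHomogeneous.add hf hg

theorem Hz.smul {n : ℤ} {f : MvPolynomial σ ℂ} (hf : Hz n f) (c : ℂ) : Hz n (c • f) :=
  Submodule.smul_mem (weightedHomogeneousSubmodule ℂ (fun _ : σ => (1 : ℤ)) n) c hf

theorem Hz.neg {n : ℤ} {f : MvPolynomial σ ℂ} (hf : Hz n f) : Hz n (-f) :=
  Submodule.neg_mem (weightedHomogeneousSubmodule ℂ (fun _ : σ => (1 : ℤ)) n) hf

theorem Hz.sub {n : ℤ} {f g : MvPolynomial σ ℂ} (hf : Hz n f) (hg : Hz n g) : Hz n (f - g) :=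
  Submodule.sub_mem (weightedHomogeneousSubmodule ℂ (fun _ : σ => (1 : ℤ)) n) hf hg

theorem Hz.zsmul {n : ℤ} {f : MvPolynomial σ ℂ} (hf : Hz n f) (c : ℤ) : Hz n (c • f) :=
  (weightedHomogeneousSubmodule ℂ (fun _ : σ => (1 : ℤ)) n).toAddSubgroup.zsmul_mem hf c

theorem Hz.sum {ι : Type*} {n : ℤ} (s : Finset ι) (f : ι → MvPolynomial σ ℂ)
    (hf : ∀ i ∈ s, Hz n (f i)) : Hz n (∑ i ∈ s, f i) :=
  Submodule.sum_mem (weightedHomogeneousSubmodule ℂ (fun _ : σ => (1 : ℤ)) n) hf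

theorem Hz.mul {m n : ℤ} {f g : MvPolynomial σ ℂ} (hf : Hz m f) (hg : Hz n g) :
    Hz (m + n) (f * g) := IsWeightedHomogeneous.mul hf hg

theorem hz_X (i : σ) : Hz 1 (X i : MvPolynomial σ ℂ) := isWeightedHomogeneous_X _ _ _

theorem Hz.coeff {n : ℤ} {f : MvPolynomial σ ℂ} (hf : Hz n f) {m : σ →₀ ℕ}
    (hm : f.coeff m ≠ 0) : (m.degree : ℤ) = n := by
  have h := hf hm
  rw [← h]
  simp [Finsupp.weight_apply, Finsupp.degree_apply, Finsupp.sum]

theorem hz_iff {n : ℤ} {f : MvPolynomial σ ℂ} :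
    Hz n f ↔ ∀ m : σ →₀ ℕ, f.coeff m ≠ 0 → (m.degree : ℤ) = n := by
  refine ⟨fun h m hm => h.coeff hm, fun h m hm => ?_⟩
  rw [← h m hm]
  simp [Finsupp.weight_apply, Finsupp.degree_apply, Finsupp.sum]

theorem hz_nat {n : ℕ} {f : MvPolynomial σ ℂ} : Hz n f ↔ f.IsHomogeneous n := by
  rw [hz_iff]
  constructor
  · intro h m hm
    have := h m hm
    rw [← Nat.cast_inj (R := ℤ), ← this]
    simp [Finsupp.weight_apply, Finsupp.degree_apply, Finsupp.sum]
  · intro h m hm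
    rw [← h hm]
    simp [Finsupp.weight_apply, Finsupp.degree_apply, Finsupp.sum]

theorem Hz.eq_zero {n : ℤ} (hn : n < 0) {f : MvPolynomial σ ℂ} (hf : Hz n f) : f = 0 := by
  ext m
  by_contra h
  have h1 := hf.coeff (m := m) (by simpa using h)
  omega

/-- Euler's identity -/
theorem Hz.euler {n : ℤ} {f : MvPolynomial σ ℂ} (hf : Hz n f) :
    ∑ i, X i * pderiv i f = (n : ℂ) • f := by
  rcases lt_or_ge n 0 with hn | hn
  · rw [hf.eq_zero hn]; simp
  · obtain ⟨k, rfl⟩ := Int.eq_ofNat_of_zero_le hn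
    rw [(hz_nat.1 hf).sum_X_mul_pderiv]
    simp [Nat.cast_smul_eq_nsmul]

theorem Hz.pderiv {n : ℤ} {f : MvPolynomial σ ℂ} (hf : Hz n f) (i : σ) :
    Hz (n - 1) (pderiv i f) := by
  rcases lt_or_ge n 1 with hn | hn
  · have : MvPolynomial.pderiv i f = 0 := by
      rcases lt_or_ge n 0 with h0 | h0
      · rw [hf.eq_zero h0, map_zero]
      · obtain rfl : n = 0 := by omega
        have h1 := hz_nat (n := 0).1 hf
        rw [← totalDegree_zero_iff_isHomogeneous, totalDegree_eq_zero_iff_eq_C] at h1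
        rw [h1, pderiv_C]
    rw [this]
    exact Hz.zero _
  · obtain ⟨k, rfl⟩ := Int.eq_ofNat_of_zero_le (show 0 ≤ n by omega)
    have h1 := (hz_nat.1 hf).pderiv (i := i)
    rw [← hz_nat] at h1
    rwa [Nat.cast_sub (by omega)] at h1

variable (σ) in
/-- the variables -/
noncomputable abbrev xs (i : σ) : MvPolynomial σ ℂ := X i

/-- the Euler homotopy for the wedge product -/
theorem euler_ep (f : Finset σ → MvPolynomial σ ℂ) (c : ℤ)
    (hf : ∀ I, Hz (c + I.card) (f I)) (J : Finset σ) :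
    io dx (ep (mu (xs σ)) f) J + ep (mu (xs σ)) (io dx f) J =
      ((c + Fintype.card σ : ℤ) : ℂ) • f J := by
  rw [io_ep]
  · simp only [mu_apply, dx_apply, Derivation.leibniz, smul_eq_mul, xs, pderiv_X_self, mul_one]
    rw [sum_add_distrib, sum_const, add_right_comm, add_comm (∑ i ∈ Jᶜ, _), sum_add_sum_compl,
      (hf J).euler, ← Nat.cast_smul_eq_nsmul ℂ, ← add_smul]
    congr 1
    rw [card_compl, Nat.cast_sub (card_le_univ J)]
    push_cast
    ring
  · intro i k hik x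
    simp only [mu_apply, dx_apply, Derivation.leibniz, smul_eq_mul, xs]
    rw [pderiv_X_of_ne hik.symm]
    simp

/-- the Euler homotopy for the contraction -/
theorem euler_io (f : Finset σ → MvPolynomial σ ℂ) (c : ℤ)
    (hf : ∀ I, Hz (c - I.card) (f I)) (J : Finset σ) :
    io (mu (xs σ)) (ep dx f) J + ep dx (io (mu (xs σ)) f) J = (c : ℂ) • f J := by
  rw [io_ep]
  · simp only [mu_apply, dx_apply, Derivation.leibniz, smul_eq_mul, xs, pderiv_X_self, mul_one]
    rw [sum_add_distrib, sum_const, ← add_assoc, add_comm (∑ i ∈ Jᶜ, _), sum_add_sum_compl,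
      (hf J).euler, ← Nat.cast_smul_eq_nsmul ℂ, ← add_smul]
    congr 1
    push_cast
    ring
  · intro i k hik x
    simp only [mu_apply, dx_apply, Derivation.leibniz, smul_eq_mul, xs]
    rw [pderiv_X_of_ne hik]
    simp

end Vale.Agent.P287Z.O.H335
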