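import Vale.Agent.P287Z.O.H335.Kos2

/-!
# Exactness of the Koszul complex of the variables over `S` and over `S/W`
-/

set_option linter.unusedSectionVars false

namespace Vale.Agent.P287Z.O.H335

open Finset MvPolynomial

variable {σ : Type*} [Fintype σ] [LinearOrder σ]

/-- homogeneous component of degree `n : ℤ` -/
noncomputable def hc (n : ℤ) : MvPolynomial σ ℂ →ₗ[ℂ] MvPolynomial σ ℂ :=
  weightedHomogeneousComponent (fun _ => (1 : ℤ)) n

theorem hc_hz (n : ℤ) (f : MvPolynomial σ ℂ) : Hz n (hc n f) :=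
  weightedHomogeneousComponent_mem (fun _ => (1 : ℤ)) f n

theorem hc_of {m n : ℤ} {f : MvPolynomial σ ℂ} (hf : Hz m f) : hc n f = if m = n then f else 0 := by
  rw [hc, weightedHomogeneousComponent_of_mem hf]
  simp only [eq_comm]

theorem hc_self {n : ℤ} {f : MvPolynomial σ ℂ} (hf : Hz n f) : hc n f = f := by
  rw [hc_of hf, if_pos rfl]

theorem hz_monomial (d : σ →₀ ℕ) (c : ℂ) : Hz (d.degree : ℤ) (monomial d c) := by
  rw [hz_iff]
  intro m hm
  rw [coeff_monomial] at hm
  split_ifs at hm with h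
  · rw [h]
  · exact absurd rfl hm

theorem hc_mul {w : ℤ} {W : MvPolynomial σ ℂ} (hW : Hz w W) (n : ℤ) (u : MvPolynomial σ ℂ) :
    hc (w + n) (W * u) = W * hc n u := by
  induction u using MvPolynomial.induction_on' with
  | monomial d c =>
    rw [hc_of (hW.mul (hz_monomial d c)), hc_of (hz_monomial d c)]
    by_cases h : (d.degree : ℤ) = n
    · rw [if_pos (by rw [h]), if_pos h]
    · rw [if_neg (by intro h2; exact h (by omega)), if_neg h, mul_zero]
  | add p q hp hq => rw [mul_add, map_add, map_add, hp, hq, mul_add]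

theorem mu_comm (l l' : σ → MvPolynomial σ ℂ) (i k : σ) (x : MvPolynomial σ ℂ) :
    mu l i (mu l' k x) = mu l' k (mu l i x) := by
  simp only [mu_apply]; ring

theorem ep_hz {l : σ → MvPolynomial σ ℂ} (hl : ∀ i, Hz 1 (l i)) {c : ℤ}
    {f : Finset σ → MvPolynomial σ ℂ} (hf : ∀ I, Hz (c + I.card) (f I)) (J : Finset σ) :
    Hz (c + J.card) (ep (mu l) f J) := by
  refine Hz.sum _ _ fun i hi => Hz.zsmul ?_ _
  have h := (hl i).mul (hf (J.erase i))
  rw [card_erase_of_mem hi] at h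
  have h1 : 1 ≤ J.card := card_pos.2 ⟨i, hi⟩
  rw [Nat.cast_sub h1] at h
  convert! h using 1
  push_cast
  ring

theorem io_hz {l : σ → MvPolynomial σ ℂ} (hl : ∀ i, Hz 1 (l i)) {c : ℤ}
    {f : Finset σ → MvPolynomial σ ℂ} (hf : ∀ I, Hz (c - I.card) (f I)) (J : Finset σ) :
    Hz (c - J.card) (io (mu l) f J) := by
  refine Hz.sum _ _ fun i hi => Hz.zsmul ?_ _
  have hi' : i ∉ J := by simpa using hi
  have h := (hl i).mul (hf (insert i J))
  rw [card_insert_of_notMem hi'] at h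
  convert! h using 1
  push_cast
  ring

/-- `K^•(x; S)` is exact in the degrees `c ≠ -n` -/
theorem ep_exact (f : Finset σ → MvPolynomial σ ℂ) (c : ℤ) (hc : c + Fintype.card σ ≠ 0)
    (hf : ∀ I, Hz (c + I.card) (f I)) (h0 : ∀ J, ep (mu (xs σ)) f J = 0) :
    ∃ g : Finset σ → MvPolynomial σ ℂ, (∀ I, Hz (c + I.card) (g I)) ∧
      (∀ J, ep (mu (xs σ)) g J = f J) ∧
      ∀ m : ℕ, (∀ I, I.card ≠ m + 1 → f I = 0) → ∀ I, I.card ≠ m → g I = 0 := by
  have hc' : ((c + Fintype.card σ : ℤ) : ℂ) ≠ 0 := by exact_mod_cast hc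
  refine ⟨fun I => ((c + Fintype.card σ : ℤ) : ℂ)⁻¹ • io dx f I, fun I => ?_, fun J => ?_, ?_⟩
  · refine Hz.smul (Hz.sum _ _ fun i hi => Hz.zsmul ?_ _) _
    have hi' : i ∉ I := by simpa using hi
    have h := (hf (insert i I)).pderiv i
    rw [card_insert_of_notMem hi'] at h
    convert! h using 1
    push_cast
    ring
  · have h := euler_ep f c hf J
    have h1 : io dx (ep (mu (xs σ)) f) J = 0 := by
      rw [show ep (mu (xs σ)) f = 0 from funext h0]
      simp [io]
    rw [h1, zero_add] at h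
    have h2 := ep_map (mu (xs σ)) ((LinearMap.lsmul ℂ (MvPolynomial σ ℂ)
      ((c + Fintype.card σ : ℤ) : ℂ)⁻¹).toAddMonoidHom) (by
        intro i x
        simp [mu_apply]) (io dx f) J
    change ep (mu (xs σ)) (fun I => ((c + Fintype.card σ : ℤ) : ℂ)⁻¹ • io dx f I) J = _ at h2
    rw [h2]
    change ((c + Fintype.card σ : ℤ) : ℂ)⁻¹ • ep (mu (xs σ)) (io dx f) J = _
    rw [h, smul_smul, inv_mul_cancel₀ hc', one_smul]
  · intro m hm I hI
    change _ • io dx f I = 0
    have : io dx f I = 0 := by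
      refine sum_eq_zero fun i hi => ?_
      have hi' : i ∉ I := by simpa using hi
      rw [hm (insert i I) (by rw [card_insert_of_notMem hi']; omega), map_zero, smul_zero]
    rw [this, smul_zero]

/-- `K_•(x; S)` is exact in the degrees `c ≠ 0` -/
theorem io_exact (f : Finset σ → MvPolynomial σ ℂ) (c : ℤ) (hc : c ≠ 0)
    (hf : ∀ I, Hz (c - I.card) (f I)) (h0 : ∀ J, io (mu (xs σ)) f J = 0) :
    ∃ g : Finset σ → MvPolynomial σ ℂ, (∀ I, Hz (c - I.card) (g I)) ∧
      (∀ J, io (mu (xs σ)) g J = f J) ∧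
      ∀ m : ℕ, (∀ I, I.card ≠ m → f I = 0) → ∀ I, I.card ≠ m + 1 → g I = 0 := by
  have hc' : (c : ℂ) ≠ 0 := by exact_mod_cast hc
  refine ⟨fun I => (c : ℂ)⁻¹ • ep dx f I, fun I => ?_, fun J => ?_, ?_⟩
  · refine Hz.smul (Hz.sum _ _ fun i hi => Hz.zsmul ?_ _) _
    have h := (hf (I.erase i)).pderiv i
    rw [card_erase_of_mem hi, Nat.cast_sub (card_pos.2 ⟨i, hi⟩)] at h
    convert! h using 1
    push_cast
    ring
  · have h := euler_io f c hf J
    have h1 : ep dx (io (mu (xs σ)) f) J = 0 := by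
      rw [show io (mu (xs σ)) f = 0 from funext h0]
      simp [ep]
    rw [h1, add_zero] at h
    have h2 := io_map (mu (xs σ)) ((LinearMap.lsmul ℂ (MvPolynomial σ ℂ)
      (c : ℂ)⁻¹).toAddMonoidHom) (by
        intro i x
        simp [mu_apply]) (ep dx f) J
    change io (mu (xs σ)) (fun I => (c : ℂ)⁻¹ • ep dx f I) J = _ at h2
    rw [h2]
    change (c : ℂ)⁻¹ • io (mu (xs σ)) (ep dx f) J = _
    rw [h, smul_smul, inv_mul_cancel₀ hc', one_smul]
  · intro m hm I hI
    change _ • ep dx f I = 0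
    have : ep dx f I = 0 := by
      refine sum_eq_zero fun i hi => ?_
      have h1 : 1 ≤ I.card := card_pos.2 ⟨i, hi⟩
      rw [hm (I.erase i) (by rw [card_erase_of_mem hi]; omega), map_zero, smul_zero]
    rw [this, smul_zero]

end Vale.Agent.P287Z.O.H335
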