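import Vale.Agent.P287Z.O.H335.Kos3

/-!
# Exactness of the Koszul complex of the variables over `A = S/W`
-/

set_option linter.unusedSectionVars false

namespace Vale.Agent.P287Z.O.H335

open Finset MvPolynomial

variable {σ : Type*} [Fintype σ] [LinearOrder σ]

theorem mulW (W : MvPolynomial σ ℂ) (l : σ → MvPolynomial σ ℂ) (k : Finset σ → MvPolynomial σ ℂ)
    (J : Finset σ) : ep (mu l) (fun I => W * k I) J = W * ep (mu l) k J :=
  ep_map (mu l) (AddMonoidHom.mulLeft W) (by
    intro i x; simp only [mu_apply, AddMonoidHom.coe_mulLeft]; ring) k J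

theorem mulW' (W : MvPolynomial σ ℂ) (l : σ → MvPolynomial σ ℂ) (k : Finset σ → MvPolynomial σ ℂ)
    (J : Finset σ) : io (mu l) (fun I => W * k I) J = W * io (mu l) k J :=
  io_map (mu l) (AddMonoidHom.mulLeft W) (by
    intro i x; simp only [mu_apply, AddMonoidHom.coe_mulLeft]; ring) k J

/-- **(KA)** `K^•(x; A)` is exact at `Λ^m` in the degrees `c` with `c + n ≠ 0`, `c - w + n ≠ 0`
(with exceptions allowed for reasons of degree) -/
theorem epW_exact {W : MvPolynomial σ ℂ} {w : ℤ} (hW : Hz w W) (hW0 : W ≠ 0) (m : ℕ) (c : ℤ)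
    (hA : c + Fintype.card σ ≠ 0 ∨ c + m < 0)
    (hB : c - w + Fintype.card σ ≠ 0 ∨ c - w + m + 1 < 0)
    (f : Finset σ → MvPolynomial σ ℂ) (hf : ∀ I, Hz (c + I.card) (f I))
    (hs : ∀ I, I.card ≠ m → f I = 0) (h0 : ∀ J, W ∣ ep (mu (xs σ)) f J) :
    ∃ g : Finset σ → MvPolynomial σ ℂ, (∀ I, Hz (c + I.card) (g I)) ∧
      (∀ I, I.card + 1 ≠ m → g I = 0) ∧ ∀ J, W ∣ f J - ep (mu (xs σ)) g J := by
  classical
  choose u0 hu0 using h0
  have hep : ∀ J : Finset σ, J.card ≠ m + 1 → ep (mu (xs σ)) f J = 0 := by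
    intro J hJ
    refine sum_eq_zero fun i hi => ?_
    rw [hs _ (by rw [card_erase_of_mem hi]; have := card_pos.2 ⟨i, hi⟩; omega), map_zero, smul_zero]
  obtain ⟨u, hu, huH, hus⟩ : ∃ u : Finset σ → MvPolynomial σ ℂ,
      (∀ J, ep (mu (xs σ)) f J = W * u J) ∧ (∀ J, Hz (c - w + J.card) (u J)) ∧
      ∀ J, J.card ≠ m + 1 → u J = 0 := by
    refine ⟨fun J => if J.card = m + 1 then hc (c - w + J.card) (u0 J) else 0, ?_, ?_, ?_⟩
    · intro J
      dsimp only
      by_cases hJ : J.card = m + 1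
      · rw [if_pos hJ, ← hc_mul hW, ← hu0 J]
        rw [show w + (c - w + (J.card : ℤ)) = c + J.card by ring]
        exact (hc_self (ep_hz (fun i => hz_X i) hf J)).symm
      · rw [if_neg hJ, hep J hJ, mul_zero]
    · intro J
      dsimp only
      split_ifs
      · exact hc_hz _ _
      · exact Hz.zero _
    · intro J hJ
      dsimp only
      rw [if_neg hJ]
  have hu1 : ∀ J, ep (mu (xs σ)) u J = 0 := by
    intro J
    have h1 : W * ep (mu (xs σ)) u J = 0 := by
      rw [← mulW, show (fun I => W * u I) = ep (mu (xs σ)) f from (funext hu).symm]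
      exact ep_ep _ (mu_comm _ _) f J
    exact (mul_eq_zero.1 h1).resolve_left hW0
  obtain ⟨k, hkH, hk, hks⟩ : ∃ k : Finset σ → MvPolynomial σ ℂ,
      (∀ I, Hz (c - w + I.card) (k I)) ∧ (∀ J, ep (mu (xs σ)) k J = u J) ∧
      ∀ I, I.card ≠ m → k I = 0 := by
    rcases hB with hB | hB
    · obtain ⟨k, h1, h2, h3⟩ := ep_exact u (c - w) hB huH hu1
      exact ⟨k, h1, h2, h3 m hus⟩
    · refine ⟨0, fun I => Hz.zero _, fun J => ?_, fun _ _ => rfl⟩
      have h1 : u J = 0 := by
        by_cases hJ : J.card = m + 1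
        · refine (huH J).eq_zero ?_
          rw [hJ]; push_cast; linarith
        · exact hus J hJ
      rw [h1]
      simp [ep]
  set f' : Finset σ → MvPolynomial σ ℂ := fun I => f I - W * k I with hf'
  have hf'H : ∀ I, Hz (c + I.card) (f' I) := by
    intro I
    refine (hf I).sub ?_
    have := hW.mul (hkH I)
    rwa [show w + (c - w + (I.card : ℤ)) = c + I.card by ring] at this
  have hf's : ∀ I, I.card ≠ m → f' I = 0 := by
    intro I hI
    rw [hf']
    dsimp only
    rw [hs I hI, hks I hI, mul_zero, sub_zero]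
  have hf'0 : ∀ J, ep (mu (xs σ)) f' J = 0 := by
    intro J
    have h1 : ep (mu (xs σ)) f' J = ep (mu (xs σ)) f J - ep (mu (xs σ)) (fun I => W * k I) J :=
      ep_sub _ f (fun I => W * k I) J
    rw [h1, mulW, hk, hu, sub_self]
  obtain ⟨g, hgH, hg, hgs⟩ : ∃ g : Finset σ → MvPolynomial σ ℂ,
      (∀ I, Hz (c + I.card) (g I)) ∧ (∀ J, ep (mu (xs σ)) g J = f' J) ∧
      ∀ I, I.card + 1 ≠ m → g I = 0 := by
    by_cases hm : c + m < 0 ∨ m = 0
    · refine ⟨0, fun I => Hz.zero _, fun J => ?_, fun _ _ => rfl⟩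
      have h1 : f' J = 0 := by
        by_cases hJ : J.card = m
        · rcases hm with hm | hm
          · exact (hf'H J).eq_zero (by rw [hJ]; exact hm)
          · subst hm
            obtain rfl := card_eq_zero.1 hJ
            rcases hA with hA | hA
            · obtain ⟨g, h1, h2, -⟩ := ep_exact f' c hA hf'H hf'0
              rw [← h2]
              simp [ep]
            · exact (hf'H ∅).eq_zero (by simpa using hA)
        · exact hf's J hJ
      rw [h1]
      simp [ep]
    · push Not at hm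
      have hA' : c + Fintype.card σ ≠ 0 := by
        rcases hA with hA | hA
        · exact hA
        · exact absurd hA (not_lt.2 hm.1)
      obtain ⟨g, h1, h2, h3⟩ := ep_exact f' c hA' hf'H hf'0
      obtain ⟨k', rfl⟩ := Nat.exists_eq_succ_of_ne_zero hm.2
      exact ⟨g, h1, h2, fun I hI => h3 k' hf's I (by omega)⟩
  refine ⟨g, hgH, hgs, fun J => ?_⟩
  rw [hg, hf']
  dsimp only
  rw [sub_sub_cancel]
  exact dvd_mul_right _ _

/-- **(KB)** `K_•(x; A)` is exact in the degrees `c ≠ 0, w` -/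
theorem ioW_exact {W : MvPolynomial σ ℂ} {w : ℤ} (hW : Hz w W) (hW0 : W ≠ 0) (m : ℕ) (c : ℤ)
    (hA : c ≠ 0) (hB : c ≠ w)
    (f : Finset σ → MvPolynomial σ ℂ) (hf : ∀ I, Hz (c - I.card) (f I))
    (hs : ∀ I, I.card ≠ m → f I = 0) (h0 : ∀ J, W ∣ io (mu (xs σ)) f J) :
    ∃ g : Finset σ → MvPolynomial σ ℂ, (∀ I, Hz (c - I.card) (g I)) ∧
      (∀ I, I.card ≠ m + 1 → g I = 0) ∧ ∀ J, W ∣ f J - io (mu (xs σ)) g J := by
  classical
  choose u0 hu0 using h0
  have hep : ∀ J : Finset σ, J.card + 1 ≠ m → io (mu (xs σ)) f J = 0 := by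
    intro J hJ
    refine sum_eq_zero fun i hi => ?_
    have hi' : i ∉ J := by simpa using hi
    rw [hs _ (by rw [card_insert_of_notMem hi']; omega), map_zero, smul_zero]
  obtain ⟨u, hu, huH, hus⟩ : ∃ u : Finset σ → MvPolynomial σ ℂ,
      (∀ J, io (mu (xs σ)) f J = W * u J) ∧ (∀ J, Hz (c - w - J.card) (u J)) ∧
      ∀ J, J.card + 1 ≠ m → u J = 0 := by
    refine ⟨fun J => if J.card + 1 = m then hc (c - w - J.card) (u0 J) else 0, ?_, ?_, ?_⟩
    · intro J
      dsimp only
      by_cases hJ : J.card + 1 = m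
      · rw [if_pos hJ, ← hc_mul hW, ← hu0 J]
        rw [show w + (c - w - (J.card : ℤ)) = c - J.card by ring]
        exact (hc_self (io_hz (fun i => hz_X i) hf J)).symm
      · rw [if_neg hJ, hep J hJ, mul_zero]
    · intro J
      dsimp only
      split_ifs
      · exact hc_hz _ _
      · exact Hz.zero _
    · intro J hJ
      dsimp only
      rw [if_neg hJ]
  have hu1 : ∀ J, io (mu (xs σ)) u J = 0 := by
    intro J
    have h1 : W * io (mu (xs σ)) u J = 0 := by
      rw [← mulW', show (fun I => W * u I) = io (mu (xs σ)) f from (funext hu).symm]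
      exact io_io _ (mu_comm _ _) f J
    exact (mul_eq_zero.1 h1).resolve_left hW0
  obtain ⟨k, hkH, hk, hks⟩ : ∃ k : Finset σ → MvPolynomial σ ℂ,
      (∀ I, Hz (c - w - I.card) (k I)) ∧ (∀ J, io (mu (xs σ)) k J = u J) ∧
      ∀ I, I.card ≠ m → k I = 0 := by
    by_cases hm : m = 0
    · subst hm
      refine ⟨0, fun I => Hz.zero _, fun J => ?_, fun _ _ => rfl⟩
      rw [hus J (by omega)]
      simp [io]
    · obtain ⟨k', rfl⟩ := Nat.exists_eq_succ_of_ne_zero hm
      obtain ⟨k, h1, h2, h3⟩ := io_exact u (c - w) (sub_ne_zero.2 hB) huH hu1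
      exact ⟨k, h1, h2, h3 k' fun I hI => hus I (by omega)⟩
  set f' : Finset σ → MvPolynomial σ ℂ := fun I => f I - W * k I with hf'
  have hf'H : ∀ I, Hz (c - I.card) (f' I) := by
    intro I
    refine (hf I).sub ?_
    have := hW.mul (hkH I)
    rwa [show w + (c - w - (I.card : ℤ)) = c - I.card by ring] at this
  have hf's : ∀ I, I.card ≠ m → f' I = 0 := by
    intro I hI
    rw [hf']
    dsimp only
    rw [hs I hI, hks I hI, mul_zero, sub_zero]
  have hf'0 : ∀ J, io (mu (xs σ)) f' J = 0 := by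
    intro J
    have h1 : io (mu (xs σ)) f' J = io (mu (xs σ)) f J - io (mu (xs σ)) (fun I => W * k I) J :=
      io_sub _ f (fun I => W * k I) J
    rw [h1, mulW', hk, hu, sub_self]
  obtain ⟨g, h1, h2, h3⟩ := io_exact f' c hA hf'H hf'0
  refine ⟨g, h1, h3 m hf's, fun J => ?_⟩
  rw [h2, hf']
  dsimp only
  rw [sub_sub_cancel]
  exact dvd_mul_right _ _

end Vale.Agent.P287Z.O.H335
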